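import Mathlib

/-!
Finite Fourier analysis on `ZMod v` with values in a commutative ring carrying a
`v`-th root of unity, and sums over cosets of the subgroup generated by `L`.
-/

namespace Vale.Agent.Lib.P033

open Finset

set_option linter.unusedSectionVars false
set_option linter.unusedVariables false

section Generic

variable {R : Type*} [CommRing R] {v : ℕ} [NeZero v]

/-- The additive character `x ↦ ζ ^ x` on `ZMod v`. -/
def ee (ζ : R) (x : ZMod v) : R := ζ ^ x.val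

lemma ee_natCast {ζ : R} (h1 : ζ ^ v = 1) (n : ℕ) : ee ζ (n : ZMod v) = ζ ^ n := by
  unfold ee
  rw [ZMod.val_natCast, ← Nat.div_add_mod n v] 
  simp only [pow_add, pow_mul, h1, one_pow, one_mul]
  congr 1
  rw [Nat.div_add_mod]

@[simp] lemma ee_zero (ζ : R) : ee ζ (0 : ZMod v) = 1 := by
  unfold ee; simp

lemma ee_add {ζ : R} (h1 : ζ ^ v = 1) (x y : ZMod v) : ee ζ (x + y) = ee ζ x * ee ζ y := by
  have hx : x = (x.val : ZMod v) := (ZMod.natCast_zmod_val x).symm
  have hy : y = (y.val : ZMod v) := (ZMod.natCast_zmod_val y).symm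
  calc ee ζ (x + y) = ee ζ ((x.val + y.val : ℕ) : ZMod v) := by
        rw [Nat.cast_add, ← hx, ← hy]
    _ = ζ ^ (x.val + y.val) := ee_natCast h1 _
    _ = ee ζ x * ee ζ y := by rw [pow_add]; rfl

lemma ee_neg_mul {ζ : R} (h1 : ζ ^ v = 1) (x : ZMod v) : ee ζ x * ee ζ (-x) = 1 := by
  rw [← ee_add h1]; simp

lemma ee_natCast_mul {ζ : R} (h1 : ζ ^ v = 1) (n : ℕ) (x : ZMod v) :
    ee ζ ((n : ZMod v) * x) = ee ζ x ^ n := by
  induction n with
  | zero => simp
  | succ n ih =>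
    rw [Nat.cast_succ, add_mul, one_mul, ee_add h1, ih, pow_succ]

lemma ee_pow_card {ζ : R} (h1 : ζ ^ v = 1) (x : ZMod v) : ee ζ x ^ v = 1 := by
  unfold ee; rw [← pow_mul, mul_comm, pow_mul, h1, one_pow]

lemma ee_eq_one_iff [IsDomain R] {ζ : R} (hζ : IsPrimitiveRoot ζ v) (x : ZMod v) :
    ee ζ x = 1 ↔ x = 0 := by
  constructor
  · intro h
    have := hζ.dvd_of_pow_eq_one _ h
    have hlt := ZMod.val_lt x
    have : x.val = 0 := Nat.eq_zero_of_dvd_of_lt this hlt
    exact (ZMod.val_eq_zero x).1 this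
  · rintro rfl; simp

/-- Orthogonality of characters. -/
lemma sum_ee_mul [IsDomain R] {ζ : R} (hζ : IsPrimitiveRoot ζ v) (z : ZMod v) :
    ∑ k : ZMod v, ee ζ (k * z) = if z = 0 then (v : R) else 0 := by
  have h1 := hζ.pow_eq_one
  split_ifs with hz
  · subst hz; simp [ZMod.card]
  · have hne : ee ζ z ≠ 1 := fun h => hz ((ee_eq_one_iff hζ z).1 h)
    have hshift : ∑ k : ZMod v, ee ζ ((k + 1) * z) = ∑ k : ZMod v, ee ζ (k * z) :=
      Equiv.sum_comp (Equiv.addRight (1 : ZMod v)) (fun k => ee ζ (k * z))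
    have hsplit : ∑ k : ZMod v, ee ζ ((k + 1) * z)
        = ee ζ z * ∑ k : ZMod v, ee ζ (k * z) := by
      rw [mul_sum]
      refine sum_congr rfl fun k _ => ?_
      rw [add_mul, one_mul, ee_add h1, mul_comm]
    rw [hsplit] at hshift
    have : (ee ζ z - 1) * ∑ k : ZMod v, ee ζ (k * z) = 0 := by
      rw [sub_mul, one_mul, hshift, sub_self]
    exact (mul_eq_zero.1 this).resolve_left (sub_ne_zero.2 hne)

/-- Orthogonality, with the variable on the other side. -/
lemma sum_ee_mul' [IsDomain R] {ζ : R} (hζ : IsPrimitiveRoot ζ v) (z : ZMod v) :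
    ∑ k : ZMod v, ee ζ (z * k) = if z = 0 then (v : R) else 0 := by
  rw [← sum_ee_mul hζ z]
  exact sum_congr rfl fun k _ => by rw [mul_comm]

/-- Sum over the arithmetic progression `c + L * m`, `m < v / L`, with weight `a`. -/
def Tc (ζ : R) (a : ZMod v → ℤ) (L : ℕ) (c k : ZMod v) : R :=
  ∑ m ∈ range (v / L), (a (c + (L : ZMod v) * (m : ZMod v)) : R) *
    ee ζ (k * (c + (L : ZMod v) * (m : ZMod v)))

/-- Split a sum over `range (a * b)` according to residues mod `a`. -/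
lemma sum_range_mul_split {M : Type*} [AddCommMonoid M] (f : ℕ → M) (a b : ℕ) :
    ∑ m ∈ range (a * b), f m = ∑ r ∈ range a, ∑ m ∈ range b, f (r + a * m) := by
  induction b with
  | zero => simp
  | succ b ih =>
    rw [Nat.mul_succ, sum_range_add, ih]
    simp_rw [sum_range_succ]
    rw [sum_add_distrib]
    congr 1
    refine sum_congr rfl fun r _ => ?_
    rw [add_comm r]

/-- Refinement of a progression. -/
lemma Tc_split {ζ : R} (a : ZMod v → ℤ) (L' ℓ : ℕ) (hdvd : L' * ℓ ∣ v) (hℓ : 0 < ℓ)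
    (c k : ZMod v) :
    Tc ζ a L' c k = ∑ r ∈ range ℓ, Tc ζ a (L' * ℓ) (c + (L' : ZMod v) * (r : ZMod v)) k := by
  have hv : v / L' = ℓ * (v / (L' * ℓ)) := by
    obtain ⟨w, hw⟩ := hdvd
    have hL' : 0 < L' := by
      rcases Nat.eq_zero_or_pos L' with h | h
      · subst h; simp at hw; exact absurd hw (NeZero.ne v)
      · exact h
    rw [hw, Nat.div_eq_of_eq_mul_left (Nat.mul_pos hL' hℓ) (Nat.mul_comm _ _ : (L' * ℓ) * w = w * (L' * ℓ)),
      show L' * ℓ * w = L' * (ℓ * w) by ring, Nat.mul_div_cancel_left _ hL']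
  unfold Tc
  rw [hv, sum_range_mul_split]
  refine sum_congr rfl fun r _ => sum_congr rfl fun m _ => ?_
  have : c + (L' : ZMod v) * ((r + ℓ * m : ℕ) : ZMod v)
      = c + (L' : ZMod v) * (r : ZMod v) + ((L' * ℓ : ℕ) : ZMod v) * (m : ZMod v) := by
    push_cast; ring
  rw [this]

/-- A ring homomorphism with `τ ζ = ζ ^ t` acts on `Tc` by multiplying the frequency by `t`. -/
lemma map_ee {S : Type*} [CommRing S] {ζ : R} (τ : R →+* S) (ζ' : S) (t : ℕ) (h1 : ζ ^ v = 1)
    (hτ : τ ζ = ζ' ^ t) (h1' : ζ' ^ v = 1) (x : ZMod v) :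
    τ (ee ζ x) = ee ζ' ((t : ZMod v) * x) := by
  unfold ee
  rw [map_pow, hτ, ← pow_mul]
  have hx : (t : ZMod v) * x = ((t * x.val : ℕ) : ZMod v) := by
    push_cast; rw [ZMod.natCast_zmod_val]
  rw [hx]
  exact (ee_natCast h1' _).symm

lemma map_Tc {ζ : R} (τ : R →+* R) (t : ℕ) (h1 : ζ ^ v = 1) (hτ : τ ζ = ζ ^ t)
    (a : ZMod v → ℤ) (L : ℕ) (c k : ZMod v) :
    τ (Tc ζ a L c k) = Tc ζ a L c ((t : ZMod v) * k) := by
  unfold Tc
  rw [map_sum]
  refine sum_congr rfl fun m _ => ?_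
  rw [map_mul, map_intCast, map_ee τ ζ t h1 hτ h1]
  congr 2
  ring

/-- The eigenvalue property: if `W * L ≡ 0 mod v` then frequency `(1 + W) * k` only changes
`Tc` by a constant factor. -/
lemma Tc_one_add_mul {ζ : R} (h1 : ζ ^ v = 1) (a : ZMod v → ℤ) (L W : ℕ) (hW : v ∣ W * L)
    (c k : ZMod v) :
    Tc ζ a L c ((1 + (W : ZMod v)) * k) = ee ζ (k * ((W : ZMod v) * c)) * Tc ζ a L c k := by
  unfold Tc
  rw [mul_sum]
  refine sum_congr rfl fun m _ => ?_
  have h0 : (W : ZMod v) * (L : ZMod v) = 0 := by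
    have := (ZMod.natCast_eq_zero_iff (W * L) v).2 hW
    push_cast at this; exact this
  have : (1 + (W : ZMod v)) * k * (c + (L : ZMod v) * (m : ZMod v))
      = k * (c + (L : ZMod v) * (m : ZMod v)) + k * ((W : ZMod v) * c)
        + k * ((W : ZMod v) * (L : ZMod v)) * (m : ZMod v) := by ring
  rw [this, h0, mul_zero, zero_mul, add_zero, ee_add h1]
  ring

/-- Base case: the whole group. -/
lemma Tc_one_zero (ζ : R) (a : ZMod v → ℤ) (k : ZMod v) :
    Tc ζ a 1 0 k = ∑ x : ZMod v, (a x : R) * ee ζ (k * x) := by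
  unfold Tc
  simp only [Nat.div_one, Nat.cast_one, one_mul, zero_add]
  symm
  refine sum_nbij' (fun x => x.val) (fun n => (n : ZMod v)) ?_ ?_ ?_ ?_ ?_
  · intro x _; exact mem_range.2 (ZMod.val_lt x)
  · intro n _; exact mem_univ _
  · intro x _; exact ZMod.natCast_zmod_val x
  · intro n hn; exact ZMod.val_natCast_of_lt (mem_range.1 hn)
  · intro x _; rw [ZMod.natCast_zmod_val]

end Generic

end Vale.Agent.Lib.P033
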