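import Mathlib
import Vale.Agent.Lib.P033.Fourier

/-!
Elementary facts: `Good` frequencies, periodic sums, the shift of progressions,
Parseval for progressions, the flatness of a perfect sequence.
-/

namespace Vale.Agent.Lib.P033

open Finset

set_option linter.unusedSectionVars false
set_option linter.unusedVariables false

section

variable {v : ℕ} [NeZero v]

/-- The frequency `k` is a unit modulo `u`. -/
def Good (u : ℕ) (k : ZMod v) : Prop := Nat.Coprime k.val u

/-- The positive part of a sign function. -/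
def hp (h : ZMod v → ℤ) (x : ZMod v) : ℤ := if h x = 1 then 1 else 0

lemma h_eq_two_hp_sub_one {h : ZMod v → ℤ} (hsign : ∀ j, h j = 1 ∨ h j = -1) (x : ZMod v) :
    h x = 2 * hp h x - 1 := by
  unfold hp
  rcases hsign x with hx | hx <;> simp [hx]

lemma good_iff_isUnit {u : ℕ} (hdvd : u ∣ v) (k : ZMod v) :
    Good u k ↔ IsUnit (ZMod.castHom hdvd (ZMod u) k) := by
  unfold Good
  rw [← ZMod.isUnit_iff_coprime]
  have : ((k.val : ℕ) : ZMod u) = ZMod.castHom hdvd (ZMod u) k := by
    rw [ZMod.natCast_val, ZMod.castHom_apply]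
  rw [this]

lemma Good.neg {u : ℕ} (hdvd : u ∣ v) {k : ZMod v} (hk : Good u k) : Good u (-k) := by
  rw [good_iff_isUnit hdvd] at hk ⊢
  rw [map_neg]
  exact hk.neg

lemma Good.natCast_mul {u t : ℕ} (hdvd : u ∣ v) (ht : t.Coprime u) {k : ZMod v}
    (hk : Good u k) : Good u ((t : ZMod v) * k) := by
  rw [good_iff_isUnit hdvd] at hk ⊢
  rw [map_mul, map_natCast]
  exact ((ZMod.isUnit_iff_coprime t u).2 ht).mul hk

lemma good_natCast {u n : ℕ} (hdvd : u ∣ v) (hn : n.Coprime u) : Good u (n : ZMod v) := by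
  rw [good_iff_isUnit hdvd, map_natCast]
  exact (ZMod.isUnit_iff_coprime n u).2 hn

lemma good_one {u : ℕ} (hdvd : u ∣ v) : Good u (1 : ZMod v) := by
  have := good_natCast (v := v) (u := u) (n := 1) hdvd (Nat.coprime_one_left u)
  simpa using this

lemma Good.ne_zero {u : ℕ} (hu : u ≠ 1) {k : ZMod v} (hk : Good u k) : k ≠ 0 := by
  rintro rfl
  unfold Good at hk
  rw [ZMod.val_zero, Nat.coprime_zero_left] at hk
  exact hu hk

lemma Good.not_prime_dvd {u ℓ : ℕ} (hℓ : ℓ.Prime) (hℓu : ℓ ∣ u) {k : ZMod v} (hk : Good u k) :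
    ¬ ℓ ∣ k.val := by
  intro h
  unfold Good at hk
  exact hℓ.one_lt.ne' (Nat.eq_one_of_dvd_coprimes hk h hℓu)

/-- If `ℓ * y = v` and `k` is good then `k * y ≠ 0`. -/
lemma Good.mul_ne_zero {u ℓ y : ℕ} (hℓ : ℓ.Prime) (hℓu : ℓ ∣ u) (hy : ℓ * y = v)
    {k : ZMod v} (hk : Good u k) : k * (y : ZMod v) ≠ 0 := by
  intro h
  have hy0 : y ≠ 0 := by
    rintro rfl
    exact NeZero.ne v (by simpa using hy.symm)
  have h1 : ((k.val * y : ℕ) : ZMod v) = 0 := by
    push_cast; rw [ZMod.natCast_zmod_val]; exact h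
  have h2 : v ∣ k.val * y := (ZMod.natCast_eq_zero_iff _ _).1 h1
  have h3 : ℓ * y ∣ k.val * y := by rw [hy]; exact h2
  exact hk.not_prime_dvd hℓ hℓu (Nat.dvd_of_mul_dvd_mul_right (Nat.pos_of_ne_zero hy0) h3)

/-- Sums of periodic functions over a period are invariant under shifts. -/
lemma sum_range_shift {M : Type*} [AddCommGroup M] {N : ℕ} (f : ℕ → M)
    (hf : ∀ m, f (m + N) = f m) (w : ℕ) :
    ∑ m ∈ range N, f (m + w) = ∑ m ∈ range N, f m := by
  induction w with
  | zero => simp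
  | succ w ih =>
    have h1 : ∑ m ∈ range (N + 1), f (m + w) = ∑ m ∈ range N, f (m + w) + f (N + w) :=
      sum_range_succ _ _
    have h2 : ∑ m ∈ range (N + 1), f (m + w) = ∑ m ∈ range N, f (m + (w + 1)) + f w := by
      rw [sum_range_succ']
      simp only [zero_add]
      congr 1
      refine sum_congr rfl fun m _ => ?_
      congr 1; ring
    have h3 : f (N + w) = f w := by rw [add_comm]; exact hf w
    rw [← ih]
    have := h1.symm.trans h2
    rw [h3] at this
    exact (add_right_cancel this).symm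

variable {R : Type*} [CommRing R]

/-- The progression sum does not change when the centre moves inside the progression. -/
lemma Tc_shift {ζ : R} (a : ZMod v → ℤ) {L : ℕ} (hL : L ∣ v) (c k : ZMod v) (w : ℕ) :
    Tc ζ a L (c + (L : ZMod v) * (w : ZMod v)) k = Tc ζ a L c k := by
  unfold Tc
  obtain ⟨N, hN⟩ := hL
  have hL0 : 0 < L := by
    rcases Nat.eq_zero_or_pos L with h | h
    · subst h; simp at hN; exact absurd hN (NeZero.ne v)
    · exact h
  have hdiv : v / L = N := by rw [hN]; exact Nat.mul_div_cancel_left _ hL0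
  rw [hdiv]
  have hLN : (L : ZMod v) * (N : ZMod v) = 0 := by
    have : ((L * N : ℕ) : ZMod v) = 0 := by rw [← hN]; simp
    push_cast at this; exact this
  have := sum_range_shift (N := N)
    (fun m : ℕ => ((a (c + (L : ZMod v) * (m : ZMod v)) : ℤ) : R) *
      ee ζ (k * (c + (L : ZMod v) * (m : ZMod v)))) ?_ w
  · rw [← this]
    refine sum_congr rfl fun m _ => ?_
    have hh : c + (L : ZMod v) * (w : ZMod v) + (L : ZMod v) * (m : ZMod v)
        = c + (L : ZMod v) * ((m + w : ℕ) : ZMod v) := by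
      push_cast; ring
    rw [hh]
  · intro m
    have hh : c + (L : ZMod v) * ((m + N : ℕ) : ZMod v) = c + (L : ZMod v) * (m : ZMod v) := by
      push_cast
      rw [mul_add, hLN, add_zero]
    simp only [hh]

/-- Translation of the frequency variable by the centre: changing the centre within the
progression multiplies by a character value when the weight is constant. -/
lemma Tc_const_shift {ζ : R} (h1 : ζ ^ v = 1) {L : ℕ} (hL : L ∣ v) (c k : ZMod v) (w : ℕ) :
    Tc ζ (fun _ => 1) L c k = ee ζ (k * ((L : ZMod v) * (w : ZMod v))) * Tc ζ (fun _ => 1) L c k := by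
  conv_lhs => rw [← Tc_shift (ζ := ζ) (fun _ => 1) hL c k w]
  unfold Tc
  rw [mul_sum]
  refine sum_congr rfl fun m _ => ?_
  have : k * (c + (L : ZMod v) * (w : ZMod v) + (L : ZMod v) * (m : ZMod v))
      = k * ((L : ZMod v) * (w : ZMod v)) + k * (c + (L : ZMod v) * (m : ZMod v)) := by ring
  rw [this, ee_add h1]
  ring

/-- The sum of a nontrivial character over a progression vanishes. -/
lemma Tc_const_eq_zero [IsDomain R] {ζ : R} (hζ : IsPrimitiveRoot ζ v) {L : ℕ} (hL : L ∣ v)
    (c k : ZMod v) (w : ℕ) (hne : k * ((L : ZMod v) * (w : ZMod v)) ≠ 0) :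
    Tc ζ (fun _ => 1) L c k = 0 := by
  have h := Tc_const_shift (ζ := ζ) hζ.pow_eq_one hL c k w
  have h2 : (ee ζ (k * ((L : ZMod v) * (w : ZMod v))) - 1) * Tc ζ (fun _ => 1) L c k = 0 := by
    rw [sub_mul, one_mul, ← h, sub_self]
  refine (mul_eq_zero.1 h2).resolve_left ?_
  exact fun h3 => hne ((ee_eq_one_iff hζ _).1 (sub_eq_zero.1 h3))

/-- Decomposition of `Tc` with sign weights. -/
lemma Tc_h_eq {ζ : R} {h : ZMod v → ℤ} (hsign : ∀ j, h j = 1 ∨ h j = -1) (L : ℕ) (c k : ZMod v) :
    Tc ζ h L c k = 2 * Tc ζ (hp h) L c k - Tc ζ (fun _ => 1) L c k := by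
  unfold Tc
  rw [mul_sum, ← sum_sub_distrib]
  refine sum_congr rfl fun m _ => ?_
  rw [h_eq_two_hp_sub_one hsign]
  push_cast
  ring

/-- Injectivity of the parametrisation of a progression. -/
lemma prog_inj {L m m' : ℕ} (hL : L ∣ v) (hm : m < v / L) (hm' : m' < v / L)
    (c : ZMod v) (h : c + (L : ZMod v) * (m : ZMod v) = c + (L : ZMod v) * (m' : ZMod v)) :
    m = m' := by
  obtain ⟨N, hN⟩ := hL
  have hL0 : 0 < L := by
    rcases Nat.eq_zero_or_pos L with h | h
    · subst h; simp at hN; exact absurd hN (NeZero.ne v)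
    · exact h
  have hdiv : v / L = N := by rw [hN]; exact Nat.mul_div_cancel_left _ hL0
  rw [hdiv] at hm hm'
  have h1 := add_left_cancel h
  have h2 : ((L * m : ℕ) : ZMod v) = ((L * m' : ℕ) : ZMod v) := by push_cast; exact h1
  rw [ZMod.natCast_eq_natCast_iff] at h2
  rw [hN] at h2
  have h3 := Nat.ModEq.mul_left_cancel' hL0.ne' h2
  exact Nat.ModEq.eq_of_lt_of_lt h3 hm hm'

/-- Parseval for a progression. -/
lemma parseval_prog [IsDomain R] {ζ : R} (hζ : IsPrimitiveRoot ζ v) (a : ZMod v → ℤ) {L : ℕ}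
    (hL : L ∣ v) (c : ZMod v) :
    ∑ k : ZMod v, Tc ζ a L c k * Tc ζ a L c (-k)
      = (v : R) * ∑ m ∈ range (v / L), ((a (c + (L : ZMod v) * (m : ZMod v)) : ℤ) : R) ^ 2 := by
  have h1 := hζ.pow_eq_one
  unfold Tc
  simp_rw [sum_mul_sum]
  rw [sum_comm]
  rw [mul_sum]
  refine sum_congr rfl fun m hm => ?_
  rw [sum_comm]
  rw [sum_eq_single m]
  · have : ∀ k : ZMod v, ((a (c + (L : ZMod v) * (m : ZMod v)) : ℤ) : R) *
        ee ζ (k * (c + (L : ZMod v) * (m : ZMod v))) *
        (((a (c + (L : ZMod v) * (m : ZMod v)) : ℤ) : R) *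
        ee ζ (-k * (c + (L : ZMod v) * (m : ZMod v))))
        = ((a (c + (L : ZMod v) * (m : ZMod v)) : ℤ) : R) ^ 2 := by
      intro k
      have h2 := ee_neg_mul h1 (k * (c + (L : ZMod v) * (m : ZMod v)))
      rw [neg_mul]
      linear_combination ((a (c + (L : ZMod v) * (m : ZMod v)) : ℤ) : R) ^ 2 * h2
    simp_rw [this]
    simp [ZMod.card]
  · intro m' hm' hne
    have hfac : ∀ k : ZMod v, ((a (c + (L : ZMod v) * (m : ZMod v)) : ℤ) : R) *
        ee ζ (k * (c + (L : ZMod v) * (m : ZMod v))) *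
        (((a (c + (L : ZMod v) * (m' : ZMod v)) : ℤ) : R) *
        ee ζ (-k * (c + (L : ZMod v) * (m' : ZMod v))))
        = ((a (c + (L : ZMod v) * (m : ZMod v)) : ℤ) : R) *
          ((a (c + (L : ZMod v) * (m' : ZMod v)) : ℤ) : R) *
          ee ζ (k * ((L : ZMod v) * (m : ZMod v) - (L : ZMod v) * (m' : ZMod v))) := by
      intro k
      have h2 : k * (c + (L : ZMod v) * (m : ZMod v)) =
          k * ((L : ZMod v) * (m : ZMod v) - (L : ZMod v) * (m' : ZMod v)) +
          k * (c + (L : ZMod v) * (m' : ZMod v)) := by ring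
      have h3 := ee_neg_mul h1 (k * (c + (L : ZMod v) * (m' : ZMod v)))
      rw [neg_mul, h2, ee_add h1]
      linear_combination ((a (c + (L : ZMod v) * (m : ZMod v)) : ℤ) : R) *
        ((a (c + (L : ZMod v) * (m' : ZMod v)) : ℤ) : R) *
        ee ζ (k * ((L : ZMod v) * (m : ZMod v) - (L : ZMod v) * (m' : ZMod v))) * h3
    simp_rw [hfac]
    rw [← mul_sum, sum_ee_mul hζ, if_neg, mul_zero]
    intro hz
    apply hne
    have : c + (L : ZMod v) * (m' : ZMod v) = c + (L : ZMod v) * (m : ZMod v) := by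
      rw [sub_eq_zero] at hz
      rw [hz]
    exact prog_inj hL (mem_range.1 hm') (mem_range.1 hm) c this
  · intro h; exact absurd hm h

/-- Flatness of the Fourier transform of a perfect sequence. -/
lemma flat [IsDomain R] {ζ : R} (hζ : IsPrimitiveRoot ζ v) {h : ZMod v → ℤ}
    (hsign : ∀ j, h j = 1 ∨ h j = -1)
    (hauto : ∀ t : ZMod v, t ≠ 0 → ∑ j, h j * h (j + t) = 0) (k : ZMod v) :
    (∑ x : ZMod v, (h x : R) * ee ζ (k * x)) * (∑ x : ZMod v, (h x : R) * ee ζ (-k * x))
      = (v : R) := by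
  have h1 := hζ.pow_eq_one
  rw [sum_mul_sum]
  -- reindex x = y + t
  have step : ∀ y : ZMod v, ∑ x : ZMod v, (h x : R) * ee ζ (k * x) * ((h y : R) * ee ζ (-k * y))
      = ∑ t : ZMod v, ((h y * h (y + t) : ℤ) : R) * ee ζ (k * t) := by
    intro y
    rw [← Equiv.sum_comp (Equiv.addLeft y)]
    refine sum_congr rfl fun t _ => ?_
    simp only [Equiv.coe_addLeft]
    have h2 : k * (y + t) = k * t + k * y := by ring
    have h3 := ee_neg_mul h1 (k * y)
    rw [h2, ee_add h1, neg_mul]
    push_cast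
    linear_combination (h (y + t) : R) * (h y : R) * ee ζ (k * t) * h3
  rw [sum_comm]
  simp_rw [step]
  rw [sum_comm]
  have step2 : ∀ t : ZMod v, ∑ y : ZMod v, ((h y * h (y + t) : ℤ) : R) * ee ζ (k * t)
      = ((∑ y : ZMod v, h y * h (y + t) : ℤ) : R) * ee ζ (k * t) := by
    intro t
    rw [← sum_mul]
    push_cast
    rfl
  simp_rw [step2]
  rw [sum_eq_single 0]
  · have : ∑ y : ZMod v, h y * h (y + 0) = (v : ℤ) := by
      have : ∀ y : ZMod v, h y * h (y + 0) = 1 := by
        intro y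
        rw [add_zero]
        rcases hsign y with hy | hy <;> simp [hy]
      rw [Finset.sum_congr rfl (fun y _ => this y)]
      simp [ZMod.card]
    rw [this]
    simp
  · intro t _ ht
    rw [hauto t ht]
    simp
  · intro h; exact absurd (mem_univ _) h

end

end Vale.Agent.Lib.P033
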