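import Mathlib

/-!
Facts about the ring of integers of a cyclotomic field used for field descent:
Galois automorphisms, stability of primes above `q` under decomposition elements,
and the passage from an equality of ideals to a root of unity.
-/

namespace Vale.Agent.Lib.P033

open NumberField Polynomial

set_option linter.unusedSectionVars false
set_option linter.unusedVariables false

variable {v : ℕ} [NeZero v] {K : Type*} [Field K] [NumberField K]
  [hK : IsCyclotomicExtension {v} ℚ K]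

/-- Powers only depend on the exponent modulo `N` when `x ^ N = 1`. -/
lemma pow_eq_pow_of_modEq' {M : Type*} [Monoid M] {x : M} {N a b : ℕ} (hx : x ^ N = 1)
    (h : a ≡ b [MOD N]) : x ^ a = x ^ b := by
  rw [← Nat.div_add_mod a N, ← Nat.div_add_mod b N, pow_add, pow_add, pow_mul, pow_mul, hx,
    one_pow, one_pow, one_mul, one_mul, h]

/-- The Galois automorphism `ζ ↦ ζ ^ t`, acting on the ring of integers. -/
lemma exists_tau {ζ : K} (hζ : IsPrimitiveRoot ζ v) (t : ℕ) (ht : t.Coprime v) :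
    ∃ τ : 𝓞 K ≃+* 𝓞 K, τ hζ.toInteger = hζ.toInteger ^ t := by
  let σ : Gal(K/ℚ) := (IsCyclotomicExtension.Rat.galEquivZMod v K).symm (ZMod.unitOfCoprime t ht)
  refine ⟨RingOfIntegers.mapRingEquiv σ.toRingEquiv, ?_⟩
  apply RingOfIntegers.ext
  have h1 : σ ζ = ζ ^ t := by
    have := IsCyclotomicExtension.Rat.galEquivZMod_apply_of_pow_eq v K σ hζ.pow_eq_one
    simp only [σ, MulEquiv.apply_symm_apply, ZMod.coe_unitOfCoprime, ZMod.val_natCast] at this
    rw [show σ ζ = ζ ^ (t % v) from this]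
    exact pow_eq_pow_of_modEq' hζ.pow_eq_one (Nat.mod_modEq t v)
  simp only [RingOfIntegers.mapRingEquiv_apply, map_pow]
  exact h1

/-- Stability of a prime above `q` under an automorphism in the decomposition group of `q`. -/
lemma tau_mem_of_mem {ζ : K} (hζ : IsPrimitiveRoot ζ v) (τ : 𝓞 K ≃+* 𝓞 K) {t : ℕ}
    (hτ : τ hζ.toInteger = hζ.toInteger ^ t) {q c N e : ℕ} (hq : q.Prime) (hv : v = q ^ c * N)
    (hmod : q ^ e ≡ t [MOD N]) (P : Ideal (𝓞 K)) [hP : P.IsPrime] (hqP : (q : 𝓞 K) ∈ P)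
    {x : 𝓞 K} (hx : x ∈ P) : τ x ∈ P := by
  let R := 𝓞 K ⧸ P
  let π : 𝓞 K →+* R := Ideal.Quotient.mk P
  have hπ0 : π (q : 𝓞 K) = 0 := Ideal.Quotient.eq_zero_iff_mem.2 hqP
  have hq0 : ((q : ℕ) : R) = 0 := by
    have : π (q : 𝓞 K) = ((q : ℕ) : R) := map_natCast π q
    rw [← this, hπ0]
  have : Fact q.Prime := ⟨hq⟩
  have : CharP R q := (CharP.charP_iff_prime_eq_zero hq).2 hq0
  have : ExpChar R q := ExpChar.prime hq
  set z : R := π hζ.toInteger with hz
  have hζO : hζ.toInteger ^ v = 1 := hζ.toInteger_isPrimitiveRoot.pow_eq_one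
  have hzv : z ^ v = 1 := by rw [hz, ← map_pow, hζO, map_one]
  have hzN : z ^ N = 1 := by
    have h1 : (z ^ N) ^ q ^ c = 1 := by
      rw [← pow_mul, mul_comm, ← hv, hzv]
    have h2 : (z ^ N - 1) ^ q ^ c = 0 := by
      rw [sub_pow_char_pow, h1, one_pow, sub_self]
    exact sub_eq_zero.1 (eq_zero_of_pow_eq_zero h2)
  obtain ⟨f, hf⟩ := hζ.integralPowerBasis.exists_eq_aeval' x
  rw [hζ.integralPowerBasis_gen] at hf
  -- evaluate
  have hint : ∀ g : 𝓞 K →+* R, g.comp (algebraMap ℤ (𝓞 K)) = Int.castRingHom R := fun g =>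
    RingHom.ext_int _ _
  have hx0 : eval₂ (Int.castRingHom R) z f = 0 := by
    have h1 : π x = 0 := Ideal.Quotient.eq_zero_iff_mem.2 hx
    rw [hf, aeval_def, hom_eval₂, hint] at h1
    exact h1
  have hz_pow : z ^ t = z ^ q ^ e := pow_eq_pow_of_modEq' hzN hmod.symm
  have hτx : π (τ x) = eval₂ (Int.castRingHom R) (z ^ q ^ e) f := by
    have : π (τ x) = (π.comp (τ : 𝓞 K →+* 𝓞 K)) x := rfl
    rw [this, hf, aeval_def, hom_eval₂, hint]
    congr 1
    simp only [RingHom.comp_apply, RingHom.coe_coe]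
    rw [hτ, map_pow, hz_pow]
  have hfrob : eval₂ (Int.castRingHom R) (z ^ q ^ e) f = 0 := by
    have h1 := hom_eval₂ f (Int.castRingHom R) (iterateFrobenius R q e) z
    rw [hx0, map_zero] at h1
    have h2 : (iterateFrobenius R q e).comp (Int.castRingHom R) = Int.castRingHom R :=
      RingHom.ext_int _ _
    rw [h2, iterateFrobenius_def] at h1
    exact h1.symm
  rw [hfrob] at hτx
  exact Ideal.Quotient.eq_zero_iff_mem.1 hτx

/-- A prime above `q` is stable under such an automorphism. -/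
lemma comap_tau_eq {ζ : K} (hζ : IsPrimitiveRoot ζ v) (τ : 𝓞 K ≃+* 𝓞 K) {t : ℕ}
    (hτ : τ hζ.toInteger = hζ.toInteger ^ t) {q c N e : ℕ} (hq : q.Prime) (hv : v = q ^ c * N)
    (hmod : q ^ e ≡ t [MOD N]) (P : Ideal (𝓞 K)) (hP : P.IsPrime) (hqP : (q : 𝓞 K) ∈ P) :
    Ideal.comap τ P = P := by
  have hne : P ≠ ⊥ := by
    intro h
    rw [h, Ideal.mem_bot] at hqP
    exact hq.ne_zero (by exact_mod_cast hqP)
  have hmax : P.IsMaximal := hP.isMaximal hne
  have hle : P ≤ Ideal.comap τ P := fun x hx => by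
    rw [Ideal.mem_comap]
    exact tau_mem_of_mem hζ τ hτ hq hv hmod P hqP hx
  have hntop : Ideal.comap τ P ≠ ⊤ := by
    intro h
    have : (1 : 𝓞 K) ∈ Ideal.comap τ P := by rw [h]; trivial
    rw [Ideal.mem_comap, map_one] at this
    exact hP.ne_top ((Ideal.eq_top_iff_one P).2 this)
  exact (hmax.eq_of_le hntop hle).symm

/-- If all prime factors of the ideal `(A)` are stable under `τ`, then `A ∣ τ A`. -/
lemma dvd_tau (τ : 𝓞 K ≃+* 𝓞 K) {A : 𝓞 K}
    (hstable : ∀ P : Ideal (𝓞 K), P.IsPrime → A ∈ P → Ideal.comap τ P = P) : A ∣ τ A := by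
  have main : ∀ I : Ideal (𝓞 K), (∀ P : Ideal (𝓞 K), Prime P → P ∣ I → Ideal.comap τ P = P) →
      Ideal.comap τ I = I := by
    intro I
    induction I using UniqueFactorizationMonoid.induction_on_prime with
    | h₁ =>
      intro _
      exact Ideal.comap_bot_of_injective _ τ.injective
    | h₂ I hI =>
      intro _
      have : I = ⊤ := Ideal.isUnit_iff.1 hI
      rw [this, Ideal.comap_top]
    | h₃ I P hI hP ih =>
      intro h
      have h1 : Ideal.comap τ P = P := h P hP (dvd_mul_right P I)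
      have h2 : Ideal.comap τ I = I := ih fun Q hQ hQI => h Q hQ (Dvd.dvd.mul_left hQI P)
      rw [← Ideal.map_symm] at h1 h2 ⊢
      rw [Ideal.map_mul, h1, h2]
  have hI := main (Ideal.span {A}) (by
    intro P hP hdvd
    refine hstable P (Ideal.isPrime_of_prime hP) ?_
    exact (Ideal.dvd_span_singleton).1 hdvd)
  have hA : A ∈ Ideal.comap τ (Ideal.span {A}) := by
    rw [hI]; exact Ideal.mem_span_singleton_self A
  rw [Ideal.mem_comap] at hA
  exact Ideal.mem_span_singleton.1 hA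

/-- An algebraic integer of a cyclotomic field of even order all of whose conjugates have norm one
is a power of the chosen root of unity. -/
lemma exists_pow_zeta {ζ : K} (hζ : IsPrimitiveRoot ζ v) (heven : Even v) {ε : 𝓞 K}
    (hφ : ∀ φ : K →+* ℂ, ‖φ (ε : K)‖ = 1) : ∃ i : ℕ, ε = hζ.toInteger ^ i := by
  obtain ⟨n, hn, hε⟩ := Embeddings.pow_eq_one_of_norm_eq_one K ℂ ε.isIntegral_coe hφ
  have hεO : ε ^ n = 1 := by
    apply RingOfIntegers.ext
    simpa using hε
  let w : (𝓞 K)ˣ := Units.ofPowEqOne ε n hεO hn.ne'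
  have hw : w ∈ Units.torsion K := by
    rw [Units.torsion, CommGroup.mem_torsion, isOfFinOrder_iff_pow_eq_one]
    refine ⟨n, hn, ?_⟩
    apply Units.ext
    simp [w]
  have hpow : w ^ Units.torsionOrder K = 1 := by
    have h1 := pow_card_eq_one' (x := (⟨w, hw⟩ : Units.torsion K))
    have h2 := Subtype.ext_iff.1 h1
    simp only [SubmonoidClass.coe_pow, OneMemClass.coe_one] at h2
    exact h2
  rw [IsCyclotomicExtension.Rat.torsionOrder_eq (n := v), if_pos heven] at hpow
  have hεv : (ε : K) ^ v = 1 := by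
    have := congrArg (fun x : (𝓞 K)ˣ => ((x : 𝓞 K) : K)) hpow
    simpa [w] using this
  obtain ⟨i, -, hi⟩ := hζ.eq_pow_of_pow_eq_one hεv
  refine ⟨i, ?_⟩
  apply RingOfIntegers.ext
  rw [← hi]
  exact (map_pow (algebraMap (𝓞 K) K) hζ.toInteger i).symm

end Vale.Agent.Lib.P033
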