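import Mathlib

/-!
Algebraic lemmas used in the descent step: a discrete Fourier inversion over an `ℓ`-th root of
unity (`separation`), the semilinear iteration (`chain`), and an elementary divisibility lemma
about `1 + t + ... + t ^ (ℓ - 1)` for `t ≡ 1` mod `ℓ`.
-/

namespace Vale.Agent.Lib.P033

open Finset

set_option linter.unusedSectionVars false
set_option linter.unusedVariables false

/-- Geometric sum of a nontrivial `ℓ`-th root of unity vanishes. -/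
lemma geom_sum_eq_zero_of_pow_eq_one {R : Type*} [CommRing R] [IsDomain R] {x : R} {ℓ : ℕ}
    (hx : x ^ ℓ = 1) (hne : x ≠ 1) : ∑ j ∈ range ℓ, x ^ j = 0 := by
  have h := geom_sum_mul x ℓ
  rw [hx, sub_self] at h
  exact (mul_eq_zero.1 h).resolve_right (sub_ne_zero.2 hne)

/-- Discrete Fourier separation. -/
lemma separation {R : Type*} [CommRing R] [IsDomain R] [CharZero R] {ℓ : ℕ} (hℓ : 0 < ℓ)
    {ω ξ A : R} (hω : IsPrimitiveRoot ω ℓ) (hξ : ξ ^ ℓ = 1) (Y : ℕ → R)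
    (hZ : ∀ j : ℕ, ∑ r ∈ range ℓ, ω ^ (j * r) * Y r = ξ ^ j * A) :
    ∃ r0, r0 < ℓ ∧ Y r0 = A ∧ ∀ r, r < ℓ → r ≠ r0 → Y r = 0 := by
  have : NeZero ℓ := ⟨hℓ.ne'⟩
  obtain ⟨r0, hr0, hξr⟩ := hω.eq_pow_of_pow_eq_one hξ
  -- inversion at `r1`
  have key : ∀ r1, r1 < ℓ → (ℓ : R) * Y r1 = (if r1 = r0 then (ℓ : R) else 0) * A := by
    intro r1 hr1
    set w : R := ω ^ (ℓ - r1) with hw
    have hpow : ∀ r, r < ℓ → (w * ω ^ r) ^ ℓ = 1 := by
      intro r _
      rw [mul_pow, hw, ← pow_mul, ← pow_mul, mul_comm (ℓ - r1), pow_mul, hω.pow_eq_one, one_pow,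
        one_mul, mul_comm r, pow_mul, hω.pow_eq_one, one_pow]
    have hne : ∀ r, r < ℓ → r ≠ r1 → w * ω ^ r ≠ 1 := by
      intro r hr hrr
      rw [hw, ← pow_add]
      intro h
      have hd := hω.dvd_of_pow_eq_one _ h
      have : r = r1 := by
        have h1 : ℓ ∣ ℓ - r1 + r := hd
        by_cases hlt : r1 ≤ r
        · have : ℓ - r1 + r = ℓ + (r - r1) := by omega
          rw [this] at h1
          have h2 : ℓ ∣ r - r1 := (Nat.dvd_add_right (dvd_refl ℓ)).1 h1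
          have h3 : r - r1 = 0 := Nat.eq_zero_of_dvd_of_lt h2 (by omega)
          omega
        · have h4 : ℓ - r1 + r < ℓ := by omega
          have h5 : 0 < ℓ - r1 + r := by omega
          exact absurd (Nat.le_of_dvd h5 h1) (by omega)
      exact hrr this
    have hself : w * ω ^ r1 = 1 := by
      rw [hw, ← pow_add, Nat.sub_add_cancel hr1.le, hω.pow_eq_one]
    have hL : ∑ j ∈ range ℓ, w ^ j * ∑ r ∈ range ℓ, ω ^ (j * r) * Y r = (ℓ : R) * Y r1 := by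
      calc ∑ j ∈ range ℓ, w ^ j * ∑ r ∈ range ℓ, ω ^ (j * r) * Y r
          = ∑ r ∈ range ℓ, (∑ j ∈ range ℓ, (w * ω ^ r) ^ j) * Y r := by
            simp_rw [mul_sum]
            rw [sum_comm]
            refine sum_congr rfl fun r _ => ?_
            rw [sum_mul]
            refine sum_congr rfl fun j _ => ?_
            have hh : (ω ^ r) ^ j = ω ^ (j * r) := by rw [← pow_mul, mul_comm]
            rw [mul_pow, hh, mul_assoc]
        _ = (ℓ : R) * Y r1 := by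
            rw [sum_eq_single r1]
            · rw [hself]; simp
            · intro r hr hrr
              rw [geom_sum_eq_zero_of_pow_eq_one (hpow r (mem_range.1 hr))
                (hne r (mem_range.1 hr) hrr), zero_mul]
            · intro h; exact absurd (mem_range.2 hr1) h
    have hR : ∑ j ∈ range ℓ, w ^ j * (ξ ^ j * A)
        = (if r1 = r0 then (ℓ : R) else 0) * A := by
      have : ∑ j ∈ range ℓ, w ^ j * (ξ ^ j * A) = (∑ j ∈ range ℓ, (w * ω ^ r0) ^ j) * A := by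
        rw [sum_mul]
        refine sum_congr rfl fun j _ => ?_
        rw [← hξr, mul_pow, mul_assoc]
      rw [this]
      split_ifs with h
      · subst h; rw [hself]; simp
      · rw [geom_sum_eq_zero_of_pow_eq_one (hpow r0 hr0) (hne r0 hr0 (Ne.symm h))]
    rw [← hL, ← hR]
    exact sum_congr rfl fun j _ => by rw [hZ j]
  have hℓ0 : (ℓ : R) ≠ 0 := Nat.cast_ne_zero.2 hℓ.ne'
  refine ⟨r0, hr0, ?_, ?_⟩
  · have := key r0 hr0
    rw [if_pos rfl] at this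
    exact mul_left_cancel₀ hℓ0 this
  · intro r hr hne
    have := key r hr
    rw [if_neg hne, zero_mul] at this
    exact (mul_eq_zero.1 this).resolve_left hℓ0

/-- Semilinear iteration. -/
lemma chain {R : Type*} [CommRing R] [IsDomain R] (τ : R →+* R) {ζ ω ρ A : R} {t s ℓ : ℕ}
    (hτ : τ ζ = ζ ^ t) (hτω : τ ω = ω) (hρ : ρ ≠ 0) (Y : ℕ → R)
    (hA : A = ∑ r ∈ range ℓ, Y r) (hY : ∀ r, r < ℓ → τ (Y r) = ρ * ω ^ r * Y r)
    (hτA : τ A = ζ ^ s * ρ * A) (j : ℕ) :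
    ∑ r ∈ range ℓ, ω ^ (j * r) * Y r = ζ ^ (s * ∑ i ∈ range j, t ^ i) * A := by
  induction j with
  | zero => simp [hA]
  | succ j ih =>
    have h := congrArg τ ih
    rw [map_sum, map_mul, map_pow, hτ, hτA] at h
    have hL : ∑ r ∈ range ℓ, τ (ω ^ (j * r) * Y r)
        = ρ * ∑ r ∈ range ℓ, ω ^ ((j + 1) * r) * Y r := by
      rw [mul_sum]
      refine sum_congr rfl fun r hr => ?_
      rw [map_mul, map_pow, hτω, hY r (mem_range.1 hr)]
      ring
    rw [hL] at h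
    have hg : ∑ i ∈ range (j + 1), t ^ i = t * (∑ i ∈ range j, t ^ i) + 1 := by
      rw [sum_range_succ', mul_sum]
      simp [pow_succ, mul_comm]
    have : ρ * ∑ r ∈ range ℓ, ω ^ ((j + 1) * r) * Y r
        = ρ * (ζ ^ (s * ∑ i ∈ range (j + 1), t ^ i) * A) := by
      rw [h, hg]
      ring
    exact mul_left_cancel₀ hρ this

/-- `(1 + W) ^ i = 1 + i W + W ^ 2 C`. -/
lemma one_add_pow_expand (W i : ℕ) : ∃ C : ℕ, (1 + W) ^ i = 1 + i * W + W ^ 2 * C := by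
  induction i with
  | zero => exact ⟨0, by simp⟩
  | succ i ih =>
    obtain ⟨C, hC⟩ := ih
    refine ⟨i + C * (1 + W), ?_⟩
    rw [pow_succ, hC]
    ring

/-- For `ℓ ∣ W`, `ℓ` odd: `1 + t + ... + t ^ (ℓ - 1) = ℓ + ℓ ^ 2 X`, where `t = 1 + W`. -/
lemma geom_sum_form {ℓ W : ℕ} (hℓ : Odd ℓ) (hW : ℓ ∣ W) :
    ∃ X : ℕ, ∑ i ∈ range ℓ, (1 + W) ^ i = ℓ * (1 + ℓ * X) := by
  obtain ⟨w, rfl⟩ := hW
  obtain ⟨d, hd⟩ := hℓ
  choose C hC using fun i => one_add_pow_expand (ℓ * w) i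
  have hsumi : ∑ i ∈ range ℓ, i = ℓ * d := by
    have := Finset.sum_range_id_mul_two ℓ
    have h2 : ℓ * (ℓ - 1) = (ℓ * d) * 2 := by
      rw [hd]; simp; ring
    rw [h2] at this
    exact Nat.eq_of_mul_eq_mul_right (by norm_num) this
  refine ⟨w * d + w ^ 2 * ∑ i ∈ range ℓ, C i, ?_⟩
  calc ∑ i ∈ range ℓ, (1 + ℓ * w) ^ i
      = ∑ i ∈ range ℓ, (1 + i * (ℓ * w) + (ℓ * w) ^ 2 * C i) := sum_congr rfl fun i _ => hC i
    _ = ℓ + (∑ i ∈ range ℓ, i) * (ℓ * w) + (ℓ * w) ^ 2 * ∑ i ∈ range ℓ, C i := by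
        rw [sum_add_distrib, sum_add_distrib, ← sum_mul, ← mul_sum]
        simp
    _ = ℓ * (1 + ℓ * (w * d + w ^ 2 * ∑ i ∈ range ℓ, C i)) := by
        rw [hsumi]; ring

/-- If every prime dividing `v` divides `W`, and `ℓ` is an odd prime dividing `W`, then
`v ∣ s * (1 + t + ... + t ^ (ℓ - 1))` forces `v ∣ s * ℓ`, where `t = 1 + W`. -/
lemma dvd_mul_prime_of_dvd_geom {ℓ W v s : ℕ} (hℓ : ℓ.Prime) (hodd : Odd ℓ) (hW : ℓ ∣ W)
    (hrad : ∀ r : ℕ, r.Prime → r ∣ v → r ∣ W)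
    (h : v ∣ s * ∑ i ∈ range ℓ, (1 + W) ^ i) : v ∣ s * ℓ := by
  obtain ⟨X, hX⟩ := geom_sum_form (W := W) hodd hW
  rw [hX, ← mul_assoc] at h
  refine Nat.Coprime.dvd_of_dvd_mul_right ?_ h
  -- coprimality of `v` and `1 + ℓ X`
  refine Nat.Coprime.symm (Nat.coprime_of_dvd ?_)
  intro r hr hr1 hr2
  have hrW := hrad r hr hr2
  have hmod : ∀ i, (1 + W) ^ i ≡ 1 [MOD r] := by
    intro i
    have : 1 + W ≡ 1 [MOD r] := by
      have := (Nat.modEq_zero_iff_dvd.2 hrW)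
      simpa using (Nat.ModEq.add_left 1 this)
    simpa using this.pow i
  have hsum : ∑ i ∈ range ℓ, (1 + W) ^ i ≡ ℓ [MOD r] := by
    have : ∑ i ∈ range ℓ, (1 + W) ^ i ≡ ∑ i ∈ range ℓ, 1 [MOD r] := by
      refine Nat.ModEq.sum ?_ 
      intro i _; exact hmod i
    simpa using this
  have hdiv : r ∣ ∑ i ∈ range ℓ, (1 + W) ^ i := by
    rw [hX]; exact Dvd.dvd.mul_left hr1 _
  have hrℓ : r ∣ ℓ := by
    have := (Nat.modEq_zero_iff_dvd.2 hdiv)
    exact Nat.modEq_zero_iff_dvd.1 (hsum.symm.trans this)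
  have hreq : r = ℓ := (Nat.prime_dvd_prime_iff_eq hr hℓ).1 hrℓ
  subst hreq
  have : r ∣ 1 := by
    have h3 : r ∣ r * X := Dvd.intro _ rfl
    exact (Nat.dvd_add_left h3).1 hr1
  exact hr.one_lt.ne' (Nat.dvd_one.1 this)

end Vale.Agent.Lib.P033
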