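import Mathlib
import Vale.Agent.Lib.P033.Fourier
import Vale.Agent.Lib.P033.Separation
import Vale.Agent.Lib.P033.Cyclo
import Vale.Agent.Lib.P033.Basics

/-!
The descent step: from a progression with difference `L'` to one with difference `L' * ℓ`.
-/

namespace Vale.Agent.Lib.P033

open Finset NumberField

set_option linter.unusedSectionVars false
set_option linter.unusedVariables false

section ComplexPart

variable {v : ℕ} [NeZero v] {R : Type*} [CommRing R]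

lemma conj_map_ee (f : R →+* ℂ) {ζ : R} (h1 : ζ ^ v = 1) (y : ZMod v) :
    (starRingEnd ℂ) (f (ee ζ y)) = f (ee ζ (-y)) := by
  set w := f (ee ζ y) with hw
  have hpow : w ^ v = 1 := by
    rw [hw, ← map_pow, ee_pow_card h1, map_one]
  have hnorm : ‖w‖ = 1 := Complex.norm_eq_one_of_pow_eq_one hpow (NeZero.ne v)
  have hprod : w * f (ee ζ (-y)) = 1 := by
    rw [hw, ← map_mul, ee_neg_mul h1, map_one]
  rw [← Complex.inv_eq_conj hnorm]
  exact (eq_inv_of_mul_eq_one_right hprod).symm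

lemma conj_map_Tc (f : R →+* ℂ) {ζ : R} (h1 : ζ ^ v = 1) (a : ZMod v → ℤ) (L : ℕ) (c k : ZMod v) :
    (starRingEnd ℂ) (f (Tc ζ a L c k)) = f (Tc ζ a L c (-k)) := by
  unfold Tc
  rw [map_sum, map_sum, map_sum]
  refine sum_congr rfl fun m _ => ?_
  simp only [map_mul, map_intCast, conj_map_ee f h1, neg_mul]

lemma normSq_map_Tc (f : R →+* ℂ) {ζ : R} (h1 : ζ ^ v = 1) (a : ZMod v → ℤ) (L : ℕ)
    (c k : ZMod v) :
    ((‖f (Tc ζ a L c k)‖ ^ 2 : ℝ) : ℂ) = f (Tc ζ a L c k * Tc ζ a L c (-k)) := by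
  rw [map_mul, ← conj_map_Tc f h1, Complex.mul_conj, Complex.normSq_eq_norm_sq]

lemma norm_map_Tc_of_mul {f : R →+* ℂ} {ζ : R} (h1 : ζ ^ v = 1) {a : ZMod v → ℤ} {L : ℕ}
    {c k : ZMod v} {n : ℕ} (h : Tc ζ a L c k * Tc ζ a L c (-k) = (n : R) ^ 2) :
    ‖f (Tc ζ a L c k)‖ = n := by
  have h2 := normSq_map_Tc f h1 a L c k
  rw [h, map_pow, map_natCast] at h2
  have h3 : ‖f (Tc ζ a L c k)‖ ^ 2 = (n : ℝ) ^ 2 := by exact_mod_cast h2
  have h4 := norm_nonneg (f (Tc ζ a L c k))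
  have h5 : (0 : ℝ) ≤ n := Nat.cast_nonneg n
  exact (pow_left_inj₀ h4 h5 two_ne_zero).1 h3

end ComplexPart

section Primes

variable {K : Type*} [Field K] [NumberField K]

/-- A prime ideal containing a positive integer contains one of its prime factors. -/
lemma exists_prime_dvd_mem (P : Ideal (𝓞 K)) (hP : P.IsPrime) :
    ∀ n : ℕ, n ≠ 0 → (n : 𝓞 K) ∈ P → ∃ q : ℕ, q.Prime ∧ q ∣ n ∧ (q : 𝓞 K) ∈ P := by
  intro n
  induction n using Nat.strong_induction_on with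
  | _ n ih =>
    intro hn hmem
    by_cases h1 : n = 1
    · subst h1
      exfalso
      apply hP.ne_top
      rw [Ideal.eq_top_iff_one]
      simpa using hmem
    · have hq := Nat.minFac_prime h1
      have hdvd := Nat.minFac_dvd n
      obtain ⟨m, hm⟩ := hdvd
      have hmem2 : ((n.minFac : ℕ) : 𝓞 K) * ((m : ℕ) : 𝓞 K) ∈ P := by
        have : ((n.minFac * m : ℕ) : 𝓞 K) ∈ P := by rw [← hm]; exact hmem
        push_cast at this; exact this
      rcases hP.mem_or_mem hmem2 with h | h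
      · exact ⟨n.minFac, hq, Nat.minFac_dvd n, h⟩
      · have hm0 : m ≠ 0 := by
          rintro rfl
          exact hn (by simpa using hm)
        have hlt : m < n := by
          have h2 := hq.two_le
          calc m < n.minFac * m := by nlinarith [Nat.pos_of_ne_zero hm0]
            _ = n := hm.symm
        obtain ⟨q, hq', hqm, hqP⟩ := ih m hlt hm0 h
        exact ⟨q, hq', hm ▸ Dvd.dvd.mul_left hqm _, hqP⟩

/-- `2` is not a unit in a ring of integers. -/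
lemma two_not_isUnit : ¬ IsUnit (2 : 𝓞 K) := by
  intro h
  obtain ⟨y, hy⟩ := h.exists_right_inv
  have h1 : (y : K) = algebraMap ℚ K (1 / 2) := by
    have h3 : (2 : K) * (algebraMap (𝓞 K) K y) = 1 := by
      have h4 := congrArg (algebraMap (𝓞 K) K) hy
      rw [map_mul, map_one, map_ofNat] at h4
      exact h4
    rw [map_div₀, map_one, map_ofNat]
    change algebraMap (𝓞 K) K y = _
    rw [eq_div_iff two_ne_zero, mul_comm]
    exact h3
  have h2 : IsIntegral ℤ (algebraMap ℚ K (1 / 2)) := h1 ▸ y.isIntegral_coe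
  have h3 : IsIntegral ℤ ((1 : ℚ) / 2) :=
    (isIntegral_algebraMap_iff (FaithfulSMul.algebraMap_injective ℚ K)).1 h2
  obtain ⟨z, hz⟩ := IsIntegrallyClosed.isIntegral_iff.1 h3
  have h4 : (z : ℚ) = 1 / 2 := by simpa using hz
  have h5 : (2 * z : ℤ) = 1 := by
    have : ((2 * z : ℤ) : ℚ) = 1 := by push_cast; rw [h4]; norm_num
    exact_mod_cast this
  omega

/-- There is a prime ideal containing `2`. -/
lemma exists_prime_two : ∃ P : Ideal (𝓞 K), P.IsPrime ∧ (2 : 𝓞 K) ∈ P := by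
  have hne : Ideal.span {(2 : 𝓞 K)} ≠ ⊤ := by
    rw [Ne, Ideal.span_singleton_eq_top]
    exact two_not_isUnit
  obtain ⟨P, hP, hle⟩ := Ideal.exists_le_maximal _ hne
  exact ⟨P, hP.isPrime, hle (Ideal.mem_span_singleton_self 2)⟩

end Primes

section Parity

variable {v : ℕ} [NeZero v] {R : Type*} [CommRing R]

/-- Parity: adding `u ^ 2` to the frequency does not change `Tc` modulo a prime above `2`. -/
lemma Tc_parity {P : Ideal R} (hP : P.IsPrime) (h2 : (2 : R) ∈ P) {ζ : R} (h1 : ζ ^ v = 1)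
    {u : ℕ} (hv : v = 4 * u ^ 2) (a : ZMod v → ℤ) (L : ℕ) (c k : ZMod v) :
    Tc ζ a L c (k + ((u ^ 2 : ℕ) : ZMod v)) - Tc ζ a L c k ∈ P := by
  unfold Tc
  rw [← sum_sub_distrib]
  refine Ideal.sum_mem _ fun m _ => ?_
  set x := c + (L : ZMod v) * (m : ZMod v) with hx
  have hkx : (k + ((u ^ 2 : ℕ) : ZMod v)) * x = k * x + ((u ^ 2 : ℕ) : ZMod v) * x := by ring
  rw [hkx, ee_add h1]
  set η := ee ζ (((u ^ 2 : ℕ) : ZMod v) * x) with hη
  have hη4 : η ^ 4 = 1 := by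
    rw [hη, ← ee_natCast_mul h1]
    have h0 : ((4 * u ^ 2 : ℕ) : ZMod v) = 0 := by rw [← hv]; simp
    have : ((4 : ℕ) : ZMod v) * (((u ^ 2 : ℕ) : ZMod v) * x) = 0 := by
      calc ((4 : ℕ) : ZMod v) * (((u ^ 2 : ℕ) : ZMod v) * x) = ((4 * u ^ 2 : ℕ) : ZMod v) * x := by
            push_cast; ring
        _ = 0 := by rw [h0, zero_mul]
    rw [this, ee_zero]
  have hmem : η - 1 ∈ P := by
    have h3 : (η - 1) ^ 4 ∈ P := by
      have : (η - 1) ^ 4 = 2 * (1 - 2 * η ^ 3 + 3 * η ^ 2 - 2 * η) + (η ^ 4 - 1) := by ring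
      rw [this, hη4, sub_self, add_zero]
      exact P.mul_mem_right _ h2
    exact hP.mem_of_pow_mem 4 h3
  have : (a x : R) * (ee ζ (k * x) * η) - (a x : R) * ee ζ (k * x)
      = ((a x : R) * ee ζ (k * x)) * (η - 1) := by ring
  rw [this]
  exact P.mul_mem_left _ hmem

end Parity

section Step

variable {v : ℕ} [NeZero v] {K : Type*} [Field K] [NumberField K]
  [hK : IsCyclotomicExtension {v} ℚ K]

/-- Field descent at a single good frequency. -/
lemma sep_good {ζ : K} (hζ : IsPrimitiveRoot ζ v) (h : ZMod v → ℤ) {u L' ℓ F : ℕ}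
    (hv : v = 4 * u ^ 2) (huodd : Odd u) (hu2 : u ^ 2 = L' * ℓ * F)
    (hℓ : ℓ.Prime) (hℓu : ℓ ∣ u) (hℓF : ℓ ∣ F) (hrad : ∀ r : ℕ, r.Prime → r ∣ u → r ∣ F)
    (hdec : ∀ q : ℕ, q.Prime → q ∣ u → ∃ c N e : ℕ, v = q ^ c * N ∧ q ^ e ≡ 1 + 4 * F [MOD N])
    (c : ZMod v)
    (hc : ∀ k : ZMod v, Good u k →
      Tc hζ.toInteger (hp h) L' c k * Tc hζ.toInteger (hp h) L' c (-k) = (u : 𝓞 K) ^ 2)
    (k : ZMod v) (hk : Good u k) :
    ∃ r0, r0 < ℓ ∧
      Tc hζ.toInteger (hp h) (L' * ℓ) (c + (L' : ZMod v) * (r0 : ZMod v)) k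
        = Tc hζ.toInteger (hp h) L' c k ∧
      ∀ r, r < ℓ → r ≠ r0 →
        Tc hζ.toInteger (hp h) (L' * ℓ) (c + (L' : ZMod v) * (r : ZMod v)) k = 0 := by
  classical
  set ζO : 𝓞 K := hζ.toInteger with hζO
  have hζOprim : IsPrimitiveRoot ζO v := hζ.toInteger_isPrimitiveRoot
  have h1 : ζO ^ v = 1 := hζOprim.pow_eq_one
  have huv : u ∣ v := by rw [hv]; exact Dvd.intro_left (4 * u) (by ring)
  have hu0 : u ≠ 0 := by
    rintro rfl
    exact (Nat.not_even_iff_odd.2 huodd) (by simp)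
  -- basic arithmetic
  set W : ℕ := 4 * F with hW
  have hℓW : ℓ ∣ W := Dvd.dvd.mul_left hℓF 4
  have hℓodd : Odd ℓ := huodd.of_dvd_nat hℓu
  have hradv : ∀ r : ℕ, r.Prime → r ∣ v → r ∣ W := by
    intro r hr hrv
    rw [hv] at hrv
    rcases (Nat.Prime.dvd_mul hr).1 hrv with h4 | h4
    · have : r ∣ 2 ^ 2 := by simpa using h4
      have h2 := hr.dvd_of_dvd_pow this
      exact Dvd.dvd.trans h2 (Dvd.intro (2 * F) (by rw [hW]; ring))
    · exact Dvd.dvd.mul_left (hrad r hr (hr.dvd_of_dvd_pow h4)) 4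
  have htv : (1 + W).Coprime v := by
    refine Nat.coprime_of_dvd ?_
    intro r hr hr1 hr2
    have hr3 := hradv r hr hr2
    have : r ∣ 1 := (Nat.dvd_add_left hr3).1 hr1
    exact hr.one_lt.ne' (Nat.dvd_one.1 this)
  have htu : (1 + W).Coprime u := Nat.Coprime.coprime_dvd_right huv htv
  obtain ⟨τ, hτ⟩ := exists_tau hζ (1 + W) htv
  have hτO : τ ζO = ζO ^ (1 + W) := hτ
  have hk' : Good u (-k) := hk.neg huv
  set A := Tc ζO (hp h) L' c k with hA
  set Ā := Tc ζO (hp h) L' c (-k) with hĀ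
  have hAA : A * Ā = (u : 𝓞 K) ^ 2 := hc k hk
  have hu_ne : (u : 𝓞 K) ≠ 0 := Nat.cast_ne_zero.2 hu0
  have hA0 : A ≠ 0 := by
    intro h0
    rw [h0, zero_mul] at hAA
    exact hu_ne (pow_eq_zero_iff two_ne_zero |>.1 hAA.symm)
  -- the ideal statement
  have hstable : ∀ P : Ideal (𝓞 K), P.IsPrime → A ∈ P → Ideal.comap τ P = P := by
    intro P hP hmem
    have h2 : (u : 𝓞 K) ^ 2 ∈ P := by rw [← hAA]; exact P.mul_mem_right _ hmem
    have h3 : (u : 𝓞 K) ∈ P := hP.mem_of_pow_mem 2 h2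
    obtain ⟨q, hq, hqu, hqP⟩ := exists_prime_dvd_mem P hP u hu0 h3
    obtain ⟨c', N, e, hvq, hmod⟩ := hdec q hq hqu
    exact comap_tau_eq hζ τ hτ hq hvq hmod P hP hqP
  obtain ⟨ε, hε⟩ := dvd_tau τ hstable
  -- τ acts on A through the frequency
  have hτA : τ A = Tc ζO (hp h) L' c (((1 + W : ℕ) : ZMod v) * k) :=
    map_Tc (τ : 𝓞 K →+* 𝓞 K) (1 + W) h1 hτO (hp h) L' c k
  have hgood_t : Good u (((1 + W : ℕ) : ZMod v) * k) := hk.natCast_mul huv htu
  have hεnorm : ∀ φ : K →+* ℂ, ‖φ (ε : K)‖ = 1 := by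
    intro φ
    let f : 𝓞 K →+* ℂ := φ.comp (algebraMap (𝓞 K) K)
    have hn1 : ‖f A‖ = u := norm_map_Tc_of_mul h1 (hc k hk)
    have hn2 : ‖f (τ A)‖ = u := by
      rw [hτA]
      exact norm_map_Tc_of_mul h1 (hc _ hgood_t)
    have hn3 : ‖f (τ A)‖ = ‖f A‖ * ‖f ε‖ := by rw [hε, map_mul, norm_mul]
    have hupos : (0 : ℝ) < u := Nat.cast_pos.2 (Nat.pos_of_ne_zero hu0)
    rw [hn1, hn2] at hn3
    have : (u : ℝ) * ‖f ε‖ = u * 1 := by rw [← hn3, mul_one]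
    exact mul_left_cancel₀ hupos.ne' this
  have heven : Even v := by rw [hv]; exact ⟨2 * u ^ 2, by ring⟩
  obtain ⟨i, hi⟩ := exists_pow_zeta hζ heven hεnorm
  -- the constant ρ
  set ρ : 𝓞 K := ee ζO (k * ((W : ZMod v) * c)) with hρ
  have hρρ : ρ * ee ζO (-(k * ((W : ZMod v) * c))) = 1 := ee_neg_mul h1 _
  have hρ0 : ρ ≠ 0 := by
    intro h0
    rw [h0, zero_mul] at hρρ
    exact zero_ne_one hρρ
  set s : ℕ := i + (-(k * ((W : ZMod v) * c))).val with hs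
  have hτA2 : τ A = ζO ^ s * ρ * A := by
    rw [hε, hi, hs, pow_add]
    have : ζO ^ (-(k * ((W : ZMod v) * c))).val = ee ζO (-(k * ((W : ZMod v) * c))) := rfl
    rw [this]
    linear_combination (-(A * hζ.toInteger ^ i)) * hρρ
  -- decomposition
  have hLdvd : L' * ℓ ∣ v := by
    rw [hv, show 4 * u ^ 2 = (L' * ℓ) * (4 * F) by rw [hu2]; ring]
    exact Dvd.intro _ rfl
  let Y : ℕ → 𝓞 K := fun r => Tc ζO (hp h) (L' * ℓ) (c + (L' : ZMod v) * (r : ZMod v)) k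
  have hsplit : A = ∑ r ∈ range ℓ, Y r := Tc_split (hp h) L' ℓ hLdvd hℓ.pos c k
  -- the root ω
  set y : ℕ := W * L' with hy
  have hℓy : ℓ * y = v := by
    rw [hv, hu2, hy, hW]; ring
  have hy_ne : k * (y : ZMod v) ≠ 0 := hk.mul_ne_zero hℓ hℓu hℓy
  set ω : 𝓞 K := ee ζO (k * (y : ZMod v)) with hω
  have hωℓ : ω ^ ℓ = 1 := by
    rw [hω, ← ee_natCast_mul h1]
    have : ((ℓ : ℕ) : ZMod v) * (k * (y : ZMod v)) = 0 := by
      have h0 : ((ℓ * y : ℕ) : ZMod v) = 0 := by rw [hℓy]; simp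
      push_cast at h0
      calc ((ℓ : ℕ) : ZMod v) * (k * (y : ZMod v)) = k * (((ℓ : ℕ) : ZMod v) * (y : ZMod v)) := by ring
        _ = 0 := by rw [h0, mul_zero]
    rw [this, ee_zero]
  have hω1 : ω ≠ 1 := fun h0 => hy_ne ((ee_eq_one_iff hζOprim _).1 h0)
  have hωprim : IsPrimitiveRoot ω ℓ := by
    have : Fact ℓ.Prime := ⟨hℓ⟩
    have := orderOf_eq_prime hωℓ hω1
    rw [← this]
    exact IsPrimitiveRoot.orderOf ω
  have hτω : τ ω = ω := by
    have h2 := map_ee (τ : 𝓞 K →+* 𝓞 K) ζO (1 + W) h1 hτO h1 (k * (y : ZMod v))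
    have h3 : ((W : ZMod v)) * (y : ZMod v) = 0 := by
      obtain ⟨W1, hW1⟩ := hℓW
      have h0 : ((W1 * (ℓ * y) : ℕ) : ZMod v) = 0 := by rw [hℓy]; simp
      have h4 : ((W * y : ℕ) : ZMod v) = ((W1 * (ℓ * y) : ℕ) : ZMod v) := by
        congr 1
        rw [hW1]; ring
      rw [h0] at h4
      push_cast at h4
      exact h4
    have h4 : ((1 + W : ℕ) : ZMod v) * (k * (y : ZMod v)) = k * (y : ZMod v) := by
      push_cast
      calc (1 + (W : ZMod v)) * (k * (y : ZMod v))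
          = k * (y : ZMod v) + k * ((W : ZMod v) * (y : ZMod v)) := by ring
        _ = k * (y : ZMod v) := by rw [h3, mul_zero, add_zero]
    rw [h4] at h2
    exact h2
  have hWL : v ∣ W * (L' * ℓ) := by
    rw [show W * (L' * ℓ) = v by rw [hv, hu2, hW]; ring]
  have hY : ∀ r, r < ℓ → τ (Y r) = ρ * ω ^ r * Y r := by
    intro r _
    have h2 : τ (Y r) = Tc ζO (hp h) (L' * ℓ) (c + (L' : ZMod v) * (r : ZMod v))
        (((1 + W : ℕ) : ZMod v) * k) :=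
      map_Tc (τ : 𝓞 K →+* 𝓞 K) (1 + W) h1 hτO (hp h) (L' * ℓ) _ k
    rw [h2]
    have h3 : ((1 + W : ℕ) : ZMod v) = 1 + (W : ZMod v) := by push_cast; rfl
    rw [h3, Tc_one_add_mul h1 (hp h) (L' * ℓ) W hWL]
    have h4 : k * ((W : ZMod v) * (c + (L' : ZMod v) * (r : ZMod v)))
        = k * ((W : ZMod v) * c) + (r : ZMod v) * (k * (y : ZMod v)) := by
      rw [hy]; push_cast; ring
    rw [h4, ee_add h1, ee_natCast_mul h1]
  -- the chain
  have hchain := chain (τ : 𝓞 K →+* 𝓞 K) (ζ := ζO) (ω := ω) (ρ := ρ) (A := A) (t := 1 + W) (s := s)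
    (ℓ := ℓ) hτO hτω hρ0 Y hsplit hY hτA2
  -- from the chain at j = ℓ
  have hgeom : v ∣ s * ∑ i ∈ range ℓ, (1 + W) ^ i := by
    have h2 := hchain ℓ
    have h3 : ∑ r ∈ range ℓ, ω ^ (ℓ * r) * Y r = A := by
      rw [hsplit]
      refine sum_congr rfl fun r _ => ?_
      rw [pow_mul, hωℓ, one_pow, one_mul]
    rw [h3] at h2
    have h4 : (ζO ^ (s * ∑ i ∈ range ℓ, (1 + W) ^ i) - 1) * A = 0 := by
      rw [sub_mul, one_mul, ← h2, sub_self]
    have h5 := sub_eq_zero.1 ((mul_eq_zero.1 h4).resolve_right hA0)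
    exact hζOprim.dvd_of_pow_eq_one _ h5
  have hsℓ : v ∣ s * ℓ := dvd_mul_prime_of_dvd_geom hℓ hℓodd hℓW hradv hgeom
  have hξ : (ζO ^ s) ^ ℓ = 1 := by
    rw [← pow_mul]
    exact (hζOprim.pow_eq_one_iff_dvd _).2 hsℓ
  have hgmod : ∀ j, ∑ i ∈ range j, (1 + W) ^ i ≡ j [MOD ℓ] := by
    intro j
    have h2 : ∀ i, (1 + W) ^ i ≡ 1 [MOD ℓ] := by
      intro i
      have h3 : 1 + W ≡ 1 [MOD ℓ] := by
        have := Nat.modEq_zero_iff_dvd.2 hℓW
        simpa using Nat.ModEq.add_left 1 this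
      simpa using h3.pow i
    have h3 : ∑ i ∈ range j, (1 + W) ^ i ≡ ∑ i ∈ range j, 1 [MOD ℓ] :=
      Nat.ModEq.sum fun i _ => h2 i
    simpa using h3
  have hZ : ∀ j : ℕ, ∑ r ∈ range ℓ, ω ^ (j * r) * Y r = (ζO ^ s) ^ j * A := by
    intro j
    rw [hchain j, pow_mul]
    rw [pow_eq_pow_of_modEq' hξ (hgmod j)]
  obtain ⟨r0, hr0, hr0A, hr0z⟩ := separation hℓ.pos hωprim hξ Y hZ
  exact ⟨r0, hr0, hr0A, hr0z⟩

end Step

end Vale.Agent.Lib.P033
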