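import Mathlib
import Vale.Agent.Lib.P033.Step

/-!
The induction on the progression difference and the final energy inequality.
-/

namespace Vale.Agent.Lib.P033

open Finset NumberField

set_option linter.unusedSectionVars false
set_option linter.unusedVariables false

/-- If every prime divisor of `n` divides `W` then `(1 + W) ^ n ≡ 1 mod n`. -/
lemma pow_modEq_one (W : ℕ) : ∀ n : ℕ, (∀ r : ℕ, r.Prime → r ∣ n → r ∣ W) →
    (1 + W) ^ n ≡ 1 [MOD n] := by
  intro n
  induction n using Nat.strong_induction_on with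
  | _ n ih =>
    intro hrad
    by_cases hn0 : n = 0
    · subst hn0; simp [Nat.ModEq]
    by_cases hn1 : n = 1
    · subst hn1; exact Nat.modEq_one
    have hr := Nat.minFac_prime hn1
    obtain ⟨m, hm⟩ := Nat.minFac_dvd n
    set r := n.minFac with hrdef
    have hm0 : m ≠ 0 := by
      rintro rfl
      exact hn0 (by simpa using hm)
    have hlt : m < n := by
      have h2 := hr.two_le
      calc m < r * m := by nlinarith [Nat.pos_of_ne_zero hm0]
        _ = n := hm.symm
    have hrW : r ∣ W := hrad r hr (Nat.minFac_dvd n)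
    have hIH := ih m hlt (fun r' hr' hr'm => hrad r' hr' (hm ▸ Dvd.dvd.mul_left hr'm r))
    set a := (1 + W) ^ m with ha
    have ha1 : 1 ≤ a := Nat.one_le_pow _ _ (by omega)
    have hma : m ∣ a - 1 := (Nat.modEq_iff_dvd' ha1).1 hIH.symm
    have hra : r ∣ a - 1 := by
      have h1 : 1 + W ≡ 1 [MOD r] := by
        have := Nat.modEq_zero_iff_dvd.2 hrW
        simpa using Nat.ModEq.add_left 1 this
      have h2 : a ≡ 1 [MOD r] := by simpa [ha] using h1.pow m
      exact (Nat.modEq_iff_dvd' ha1).1 h2.symm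
    obtain ⟨C, hC⟩ := one_add_pow_expand (a - 1) r
    have ha2 : 1 + (a - 1) = a := by omega
    rw [ha2] at hC
    have hgoal : (1 + W) ^ n = a ^ r := by
      rw [ha, ← pow_mul, hm, mul_comm]
    rw [hgoal, hC, hm]
    have hdvd : r * m ∣ r * (a - 1) + (a - 1) ^ 2 * C := by
      refine dvd_add (Nat.mul_dvd_mul_left r hma) (Dvd.dvd.mul_right ?_ C)
      rw [pow_two]
      exact Nat.mul_dvd_mul hra hma
    have : 1 + r * (a - 1) + (a - 1) ^ 2 * C = 1 + (r * (a - 1) + (a - 1) ^ 2 * C) := by ring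
    rw [this]
    have h0 := Nat.modEq_zero_iff_dvd.2 hdvd
    simpa using Nat.ModEq.add_left 1 h0

/-- An odd number coprime to `u` is coprime to `4 * u ^ 2`. -/
lemma coprime_of_odd {n u : ℕ} (hn : Odd n) (hnu : n.Coprime u) : n.Coprime (4 * u ^ 2) := by
  refine Nat.Coprime.mul_right ?_ (Nat.Coprime.pow_right 2 hnu)
  have h2 : n.Coprime 2 := Nat.coprime_comm.1 (Nat.coprime_two_left.2 hn)
  have := Nat.Coprime.pow_right 2 h2
  simpa using this

section Induct

variable {v : ℕ} [NeZero v] {K : Type*} [Field K] [NumberField K]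
  [hK : IsCyclotomicExtension {v} ℚ K]

/-- The descent step, uniformly in the frequency. -/
lemma conc_step {ζ : K} (hζ : IsPrimitiveRoot ζ v) (h : ZMod v → ℤ) {u L' ℓ F : ℕ}
    (hv : v = 4 * u ^ 2) (huodd : Odd u) (hu2 : u ^ 2 = L' * ℓ * F)
    (hℓ : ℓ.Prime) (hℓu : ℓ ∣ u) (hℓF : ℓ ∣ F) (hrad : ∀ r : ℕ, r.Prime → r ∣ u → r ∣ F)
    (hdec : ∀ q : ℕ, q.Prime → q ∣ u → ∃ c N e : ℕ, v = q ^ c * N ∧ q ^ e ≡ 1 + 4 * F [MOD N])
    (c : ZMod v)
    (hc : ∀ k : ZMod v, Good u k →
      Tc hζ.toInteger (hp h) L' c k * Tc hζ.toInteger (hp h) L' c (-k) = (u : 𝓞 K) ^ 2) :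
    ∃ c' : ZMod v, ∀ k : ZMod v, Good u k →
      Tc hζ.toInteger (hp h) (L' * ℓ) c' k * Tc hζ.toInteger (hp h) (L' * ℓ) c' (-k)
        = (u : 𝓞 K) ^ 2 := by
  classical
  set ζO : 𝓞 K := hζ.toInteger with hζO
  have hζOprim : IsPrimitiveRoot ζO v := hζ.toInteger_isPrimitiveRoot
  have h1 : ζO ^ v = 1 := hζOprim.pow_eq_one
  have huv : u ∣ v := by rw [hv]; exact Dvd.intro_left (4 * u) (by ring)
  obtain ⟨r1, hr1, hr1A, hr1z⟩ := sep_good hζ h hv huodd hu2 hℓ hℓu hℓF hrad hdec c hc 1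
    (good_one huv)
  refine ⟨c + (L' : ZMod v) * (r1 : ZMod v), ?_⟩
  set c' := c + (L' : ZMod v) * (r1 : ZMod v) with hc'
  -- units
  have hunit : ∀ x : ZMod v, IsUnit x →
      Tc ζO (hp h) (L' * ℓ) c' x = Tc ζO (hp h) L' c x := by
    intro x hx
    have hn : (x.val).Coprime v := by
      refine (ZMod.isUnit_iff_coprime x.val v).1 ?_
      rwa [ZMod.natCast_zmod_val]
    obtain ⟨τ, hτ⟩ := exists_tau hζ x.val hn
    have hτO : τ ζO = ζO ^ x.val := hτ
    have h2 := map_Tc (τ : 𝓞 K →+* 𝓞 K) x.val h1 hτO (hp h) (L' * ℓ) c' 1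
    have h3 := map_Tc (τ : 𝓞 K →+* 𝓞 K) x.val h1 hτO (hp h) L' c 1
    rw [ZMod.natCast_zmod_val, mul_one] at h2 h3
    rw [← h2, ← h3]
    exact congrArg _ hr1A
  have hgoodunit : ∀ x : ZMod v, IsUnit x → Good u x := by
    intro x hx
    have hn : (x.val).Coprime v := by
      refine (ZMod.isUnit_iff_coprime x.val v).1 ?_
      rwa [ZMod.natCast_zmod_val]
    exact Nat.Coprime.coprime_dvd_right huv hn
  have huodd2 : Odd (u ^ 2) := huodd.pow
  -- every good frequency
  have hall : ∀ k : ZMod v, Good u k →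
      Tc ζO (hp h) (L' * ℓ) c' k = Tc ζO (hp h) L' c k := by
    intro k hk
    by_cases hodd : Odd k.val
    · -- `k` itself is a unit
      have hn : (k.val).Coprime v := by
        have h5 := coprime_of_odd hodd (show k.val.Coprime u from hk)
        rwa [← hv] at h5
      have hx : IsUnit k := by
        have := (ZMod.isUnit_iff_coprime k.val v).2 hn
        rwa [ZMod.natCast_zmod_val] at this
      exact hunit k hx
    · -- shift by `u ^ 2`
      have heven : Even k.val := Nat.not_odd_iff_even.1 hodd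
      set n := k.val + u ^ 2 with hndef
      have hnodd : Odd n := heven.add_odd huodd2
      have hnu : n.Coprime u := by
        have : n = k.val + u * u := by rw [hndef]; ring
        rw [this]
        exact (Nat.coprime_add_mul_left_left _ _ _).2 hk
      have hn : n.Coprime v := by
        have h5 := coprime_of_odd hnodd hnu
        rwa [← hv] at h5
      set x : ZMod v := (n : ZMod v) with hxdef
      have hx : IsUnit x := (ZMod.isUnit_iff_coprime n v).2 hn
      have hxk : x = k + ((u ^ 2 : ℕ) : ZMod v) := by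
        rw [hxdef, hndef, Nat.cast_add, ZMod.natCast_zmod_val]
      obtain ⟨P, hP, h2P⟩ := exists_prime_two (K := K)
      have hprod : Tc ζO (hp h) (L' * ℓ) c' x * Tc ζO (hp h) (L' * ℓ) c' (-x) = (u : 𝓞 K) ^ 2 := by
        rw [hunit x hx, hunit (-x) hx.neg]
        exact hc x (hgoodunit x hx)
      have hnotP : Tc ζO (hp h) (L' * ℓ) c' x ∉ P := by
        intro hmem
        have h3 : ((u ^ 2 : ℕ) : 𝓞 K) ∈ P := by
          push_cast
          rw [← hprod]
          exact P.mul_mem_right _ hmem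
        obtain ⟨w, hw⟩ := huodd2
        have h4 : ((u ^ 2 : ℕ) : 𝓞 K) = 2 * (w : 𝓞 K) + 1 := by
          rw [hw]; push_cast; ring
        rw [h4] at h3
        have h5 : (1 : 𝓞 K) ∈ P := by
          have h6 := P.sub_mem h3 (P.mul_mem_right (w : 𝓞 K) h2P)
          simpa using h6
        exact hP.ne_top ((Ideal.eq_top_iff_one P).2 h5)
      have hpar := Tc_parity hP h2P h1 hv (hp h) (L' * ℓ) c' k
      rw [← hxk] at hpar
      have hkne : Tc ζO (hp h) (L' * ℓ) c' k ≠ 0 := by
        intro h0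
        rw [h0, sub_zero] at hpar
        exact hnotP hpar
      obtain ⟨r0, hr0, hr0A, hr0z⟩ := sep_good hζ h hv huodd hu2 hℓ hℓu hℓF hrad hdec c hc k hk
      have hrr : r1 = r0 := by
        by_contra hne
        exact hkne (hr0z r1 hr1 hne)
      subst hrr
      exact hr0A
  intro k hk
  rw [hall k hk, hall (-k) (hk.neg huv)]
  exact hc k hk

/-- The base of the induction: the whole group. -/
lemma conc_base {ζ : K} (hζ : IsPrimitiveRoot ζ v) {h : ZMod v → ℤ}
    (hsign : ∀ j, h j = 1 ∨ h j = -1)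
    (hauto : ∀ t : ZMod v, t ≠ 0 → ∑ j, h j * h (j + t) = 0) {u : ℕ}
    (hv : v = 4 * u ^ 2) (hu1 : u ≠ 1) (k : ZMod v) (hk : Good u k) :
    Tc hζ.toInteger (hp h) 1 0 k * Tc hζ.toInteger (hp h) 1 0 (-k) = (u : 𝓞 K) ^ 2 := by
  set ζO : 𝓞 K := hζ.toInteger with hζO
  have hζOprim : IsPrimitiveRoot ζO v := hζ.toInteger_isPrimitiveRoot
  have huv : u ∣ v := by rw [hv]; exact Dvd.intro_left (4 * u) (by ring)
  have hk0 : k ≠ 0 := hk.ne_zero hu1
  have hk0' : -k ≠ 0 := neg_ne_zero.2 hk0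
  have hone : (1 : ℕ) ∣ v := one_dvd v
  have hz : ∀ k' : ZMod v, k' ≠ 0 → Tc ζO (fun _ => 1) 1 0 k' = 0 := by
    intro k' hk'
    refine Tc_const_eq_zero hζOprim hone 0 k' 1 ?_
    simpa using hk'
  have hflat := flat (R := 𝓞 K) hζOprim hsign hauto k
  rw [← Tc_one_zero, ← Tc_one_zero, Tc_h_eq hsign, Tc_h_eq hsign, hz k hk0, hz (-k) hk0'] at hflat
  have h4 : (4 : 𝓞 K) ≠ 0 := by norm_num
  apply mul_left_cancel₀ h4
  have hvcast : ((v : ℕ) : 𝓞 K) = 4 * (u : 𝓞 K) ^ 2 := by rw [hv]; push_cast; ring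
  rw [hvcast] at hflat
  linear_combination hflat

/-- The whole descent. -/
lemma conc_all {ζ : K} (hζ : IsPrimitiveRoot ζ v) {h : ZMod v → ℤ}
    (hsign : ∀ j, h j = 1 ∨ h j = -1)
    (hauto : ∀ t : ZMod v, t ≠ 0 → ∑ j, h j * h (j + t) = 0) {u F : ℕ}
    (hv : v = 4 * u ^ 2) (huodd : Odd u) (hu1 : u ≠ 1) (hF : F ∣ u ^ 2)
    (hrad : ∀ r : ℕ, r.Prime → r ∣ u → r ∣ F)
    (hdesc : ∀ t : ℕ, t.Coprime u → t ≡ 1 [MOD F] → ∀ q : ℕ, q.Prime → q ∣ u →
      ∃ e : ℕ, q ^ e ≡ t [MOD u ^ 2 / q ^ (u ^ 2).factorization q]) :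
    ∀ L : ℕ, L ∣ u ^ 2 / F → ∃ c : ZMod v, ∀ k : ZMod v, Good u k →
      Tc hζ.toInteger (hp h) L c k * Tc hζ.toInteger (hp h) L c (-k) = (u : 𝓞 K) ^ 2 := by
  have hu0 : u ≠ 0 := by
    rintro rfl
    exact (Nat.not_even_iff_odd.2 huodd) (by simp)
  have hu2pos : 0 < u ^ 2 := by positivity
  intro L
  induction L using Nat.strong_induction_on with
  | _ L ih =>
    intro hL
    by_cases hL1 : L = 1
    · subst hL1
      exact ⟨0, fun k hk => conc_base hζ hsign hauto hv hu1 k hk⟩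
    · -- write `L = L' * ℓ`
      have hℓ := Nat.minFac_prime hL1
      obtain ⟨L', hL'⟩ := Nat.minFac_dvd L
      set ℓ := L.minFac with hℓdef
      obtain ⟨d, hd⟩ := hL
      have hFd : u ^ 2 = L * (d * F) := by
        have h1 : u ^ 2 / F * F = u ^ 2 := Nat.div_mul_cancel hF
        rw [hd] at h1
        rw [← h1]; ring
      have hL0 : L ≠ 0 := by
        rintro rfl
        simp at hFd
        exact hu0 hFd
      have hL'0 : L' ≠ 0 := by
        rintro rfl
        exact hL0 (by simpa using hL')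
      have hlt : L' < L := by
        have h2 := hℓ.two_le
        calc L' < ℓ * L' := by nlinarith [Nat.pos_of_ne_zero hL'0]
          _ = L := hL'.symm
      have hL'dvd : L' ∣ u ^ 2 / F := by
        rw [hd, hL']
        exact Dvd.dvd.mul_right (Dvd.intro_left ℓ rfl) d
      obtain ⟨c, hc⟩ := ih L' hlt hL'dvd
      set Fs := d * F with hFs
      have hℓu2 : ℓ ∣ u ^ 2 := by rw [hFd, hL']; exact Dvd.dvd.mul_right (Dvd.intro _ rfl) _
      have hℓu : ℓ ∣ u := hℓ.dvd_of_dvd_pow hℓu2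
      have hradF : ∀ r : ℕ, r.Prime → r ∣ u → r ∣ Fs := fun r hr hru =>
        Dvd.dvd.mul_left (hrad r hr hru) d
      have hu2' : u ^ 2 = L' * ℓ * Fs := by
        rw [hFd, hL']; ring
      have hdec : ∀ q : ℕ, q.Prime → q ∣ u →
          ∃ c N e : ℕ, v = q ^ c * N ∧ q ^ e ≡ 1 + 4 * Fs [MOD N] := by
        intro q hq hqu
        set t := 1 + 4 * Fs with ht
        have htu : t.Coprime u := by
          refine Nat.coprime_of_dvd ?_
          intro r hr hr1 hr2
          have h3 : r ∣ 4 * Fs := Dvd.dvd.mul_left (hradF r hr hr2) 4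
          have : r ∣ 1 := (Nat.dvd_add_left h3).1 hr1
          exact hr.one_lt.ne' (Nat.dvd_one.1 this)
        have htF : t ≡ 1 [MOD F] := by
          have h3 : F ∣ 4 * Fs := Dvd.dvd.mul_left (Dvd.intro_left d rfl) 4
          have := Nat.modEq_zero_iff_dvd.2 h3
          simpa [ht] using Nat.ModEq.add_left 1 this
        obtain ⟨e, he⟩ := hdesc t htu htF q hq hqu
        set Mq := u ^ 2 / q ^ (u ^ 2).factorization q with hMq
        have hqMq : q ^ (u ^ 2).factorization q * Mq = u ^ 2 := Nat.ordProj_mul_ordCompl_eq_self _ _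
        have hMqdvd : Mq ∣ u ^ 2 := Dvd.intro_left _ hqMq
        have hMqodd : Odd Mq := huodd.pow.of_dvd_nat hMqdvd
        have ht_pow : t ^ (u ^ 2) ≡ 1 [MOD u ^ 2] := by
          refine pow_modEq_one (4 * Fs) (u ^ 2) ?_
          intro r hr hr2
          exact Dvd.dvd.mul_left (hradF r hr (hr.dvd_of_dvd_pow hr2)) 4
        have ht_pow' : t ^ (u ^ 2) ≡ 1 [MOD Mq] := ht_pow.of_dvd hMqdvd
        refine ⟨(u ^ 2).factorization q, 4 * Mq, e * (u ^ 2 + 1), ?_, ?_⟩
        · calc v = 4 * u ^ 2 := hv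
            _ = 4 * (q ^ (u ^ 2).factorization q * Mq) := by rw [hqMq]
            _ = q ^ (u ^ 2).factorization q * (4 * Mq) := by ring
        · have hcop : Nat.Coprime 4 Mq := by
            have h5 := Nat.Coprime.pow_left 2 (Nat.coprime_two_left.2 hMqodd)
            simpa using h5
          refine (Nat.modEq_and_modEq_iff_modEq_mul hcop).1 ⟨?_, ?_⟩
          · -- modulo 4
            have hqodd : Odd q := huodd.of_dvd_nat hqu
            have heven : Even (e * (u ^ 2 + 1)) := Even.mul_left (huodd.pow.add_odd odd_one) e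
            obtain ⟨a, ha⟩ := heven
            have h4 : q ^ 2 ≡ 1 [MOD 4] := by
              obtain ⟨b, rfl⟩ := hqodd
              have : (2 * b + 1) ^ 2 = 4 * (b ^ 2 + b) + 1 := by ring
              rw [this]
              simp [Nat.ModEq, Nat.add_mod]
            have h5 : q ^ (e * (u ^ 2 + 1)) ≡ 1 [MOD 4] := by
              rw [ha, ← two_mul, pow_mul]
              simpa using h4.pow a
            have h6 : t ≡ 1 [MOD 4] := by
              simp [ht, Nat.ModEq, Nat.add_mod]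
            exact h5.trans h6.symm
          · -- modulo Mq
            have h5 : q ^ (e * (u ^ 2 + 1)) ≡ t ^ (u ^ 2 + 1) [MOD Mq] := by
              rw [pow_mul]; exact he.pow _
            have h6 : t ^ (u ^ 2 + 1) ≡ t [MOD Mq] := by
              rw [pow_succ]
              simpa using ht_pow'.mul_right t
            exact h5.trans h6
      obtain ⟨c', hc'⟩ := conc_step hζ h hv huodd hu2' hℓ hℓu (hradF ℓ hℓ hℓu) hradF hdec c hc
      have hLeq : L' * ℓ = L := by rw [hL']; ring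
      rw [hLeq] at hc'
      exact ⟨c', hc'⟩

end Induct

end Vale.Agent.Lib.P033
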