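import Mathlib
import Vale.Agent.Lib.P033.Main

/-!
The energy inequality closing the argument.
-/

namespace Vale.Agent.Lib.P033

open Finset NumberField

set_option linter.unusedSectionVars false
set_option linter.unusedVariables false

section Real

variable {v : ℕ} [NeZero v] {R : Type*} [CommRing R] [IsDomain R]

/-- Real form of Parseval. -/
lemma real_parseval (f : R →+* ℂ) {ζ : R} (hζ : IsPrimitiveRoot ζ v) (a : ZMod v → ℤ) {L : ℕ}
    (hL : L ∣ v) (c : ZMod v) :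
    ∑ k : ZMod v, ‖f (Tc ζ a L c k)‖ ^ 2
      = (v : ℝ) * ∑ m ∈ range (v / L), ((a (c + (L : ZMod v) * (m : ZMod v)) : ℤ) : ℝ) ^ 2 := by
  have h1 := hζ.pow_eq_one
  have h2 := congrArg f (parseval_prog hζ a hL c)
  rw [map_sum, map_mul, map_natCast, map_sum] at h2
  simp_rw [map_pow, map_intCast] at h2
  simp_rw [← normSq_map_Tc f h1] at h2
  exact_mod_cast h2

/-- Sum of `h` over a coset of the subgroup generated by `y`. -/
def gsum (h : ZMod v → ℤ) (p : ℕ) (y x : ZMod v) : ℤ :=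
  ∑ s ∈ range p, h (x + (s : ZMod v) * y)

lemma Tc_gsum {ζ : R} (h1 : ζ ^ v = 1) (h : ZMod v → ℤ) (p : ℕ) {L : ℕ} (hL : L ∣ v) (w : ℕ)
    (c k : ZMod v) :
    Tc ζ (gsum h p ((L : ZMod v) * (w : ZMod v))) L c k
      = (∑ s ∈ range p, (ee ζ (-(k * ((L : ZMod v) * (w : ZMod v))))) ^ s) * Tc ζ h L c k := by
  set y : ZMod v := (L : ZMod v) * (w : ZMod v) with hy
  have key : ∀ s : ℕ, (ee ζ (-(k * y))) ^ s * Tc ζ h L c k
      = ∑ m ∈ range (v / L), ((h (c + (L : ZMod v) * (m : ZMod v) + (s : ZMod v) * y) : ℤ) : R) *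
          ee ζ (k * (c + (L : ZMod v) * (m : ZMod v))) := by
    intro s
    rw [← Tc_shift (ζ := ζ) h hL c k (w * s)]
    unfold Tc
    rw [mul_sum]
    refine sum_congr rfl fun m _ => ?_
    have e1 : c + (L : ZMod v) * ((w * s : ℕ) : ZMod v) + (L : ZMod v) * (m : ZMod v)
        = c + (L : ZMod v) * (m : ZMod v) + (s : ZMod v) * y := by
      rw [hy]; push_cast; ring
    rw [e1]
    have e2 : (ee ζ (-(k * y))) ^ s = ee ζ (-(k * ((s : ZMod v) * y))) := by
      rw [← ee_natCast_mul h1]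
      congr 1
      ring
    rw [e2]
    have e3 : k * (c + (L : ZMod v) * (m : ZMod v) + (s : ZMod v) * y)
        = k * ((s : ZMod v) * y) + k * (c + (L : ZMod v) * (m : ZMod v)) := by ring
    rw [e3, ee_add h1]
    have e4 := ee_neg_mul h1 (k * ((s : ZMod v) * y))
    linear_combination
      ((h (c + (L : ZMod v) * (m : ZMod v) + (s : ZMod v) * y) : ℤ) : R) *
        ee ζ (k * (c + (L : ZMod v) * (m : ZMod v))) * e4
  rw [sum_mul]
  simp_rw [key]
  rw [sum_comm]
  unfold Tc gsum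
  refine sum_congr rfl fun m _ => ?_
  push_cast
  rw [sum_mul]

/-- The geometric sum of the character on a subgroup of order `p`. -/
lemma geom_ee {ζ : R} (hζ : IsPrimitiveRoot ζ v) {p y : ℕ} (hy : p * y = v) (k : ZMod v) :
    ∑ s ∈ range p, (ee ζ (-(k * (y : ZMod v)))) ^ s
      = if k * (y : ZMod v) = 0 then (p : R) else 0 := by
  have h1 := hζ.pow_eq_one
  split_ifs with h0
  · rw [h0]; simp
  · have h2 : (ee ζ (-(k * (y : ZMod v)))) ^ p = 1 := by
      rw [← ee_natCast_mul h1]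
      have h3 : ((p : ℕ) : ZMod v) * (-(k * (y : ZMod v))) = 0 := by
        have h4 : ((p * y : ℕ) : ZMod v) = 0 := by rw [hy]; simp
        push_cast at h4
        calc ((p : ℕ) : ZMod v) * (-(k * (y : ZMod v)))
            = -k * ((p : ZMod v) * (y : ZMod v)) := by ring
          _ = 0 := by rw [h4, mul_zero]
      rw [h3, ee_zero]
    refine geom_sum_eq_zero_of_pow_eq_one h2 ?_
    intro h3
    have := (ee_eq_one_iff hζ _).1 h3
    exact h0 (neg_eq_zero.1 this)

/-- Sums of an odd number of signs are odd, so they are not zero. -/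
lemma gsum_sq_ge {h : ZMod v → ℤ} (hsign : ∀ j, h j = 1 ∨ h j = -1) {p : ℕ} (hpodd : Odd p)
    (y x : ZMod v) : (1 : ℝ) ≤ ((gsum h p y x : ℤ) : ℝ) ^ 2 := by
  have h1 : gsum h p y x = 2 * ∑ s ∈ range p, hp h (x + (s : ZMod v) * y) - (p : ℤ) := by
    unfold gsum
    rw [mul_sum]
    have : (p : ℤ) = ∑ s ∈ range p, (1 : ℤ) := by simp
    rw [this, ← sum_sub_distrib]
    refine sum_congr rfl fun s _ => ?_
    exact h_eq_two_hp_sub_one hsign _
  have h2 : gsum h p y x ≠ 0 := by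
    rw [h1]
    obtain ⟨b, rfl⟩ := hpodd
    push_cast
    omega
  have h3 : (1 : ℤ) ≤ (gsum h p y x) ^ 2 := by
    have := pow_pos (abs_pos.2 h2) 2
    rw [sq_abs] at this
    omega
  exact_mod_cast h3

open Classical in
/-- Counting the frequencies coprime to `u`. -/
lemma card_good {u : ℕ} (hv : v = 4 * u ^ 2) :
    (univ.filter (fun k : ZMod v => Good u k)).card = 4 * u * u.totient := by
  classical
  have h1 : (univ.filter (fun k : ZMod v => Good u k)).card
      = ((range v).filter (fun n => n.Coprime u)).card := by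
    refine card_nbij' (fun x => x.val) (fun n => (n : ZMod v)) ?_ ?_ ?_ ?_
    · intro x hx
      have hx' : Good u x := (mem_filter.1 hx).2
      exact mem_filter.2 ⟨mem_coe.2 (mem_range.2 (ZMod.val_lt x)), hx'⟩
    · intro n hn
      have hn' := mem_filter.1 hn
      refine mem_filter.2 ⟨mem_univ _, ?_⟩
      unfold Good
      rw [ZMod.val_natCast_of_lt (mem_range.1 hn'.1)]
      exact hn'.2
    · intro x _
      exact ZMod.natCast_zmod_val x
    · intro n hn
      exact ZMod.val_natCast_of_lt (mem_range.1 (mem_filter.1 hn).1)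
  rw [h1, card_filter, hv, show 4 * u ^ 2 = u * (4 * u) by ring, sum_range_mul_split]
  have h2 : ∀ r ∈ range u, ∑ m ∈ range (4 * u), (if (r + u * m).Coprime u then 1 else 0)
      = (4 * u) * (if u.Coprime r then 1 else 0) := by
    intro r _
    have : ∀ m, (r + u * m).Coprime u ↔ u.Coprime r := by
      intro m
      rw [Nat.coprime_add_mul_left_left, Nat.coprime_comm]
    simp_rw [this]
    simp
  rw [sum_congr rfl h2, ← mul_sum, Nat.totient_eq_card_coprime, card_filter]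

end Real

section Energy

variable {v : ℕ} [NeZero v] {R : Type*} [CommRing R] [IsDomain R]

/-- Energy inequality: constant magnitude on good frequencies at the level of a progression with
`v / L` elements forces a lower bound on the number of elements. -/
lemma energy_bound (f : R →+* ℂ) {ζ : R} (hζ : IsPrimitiveRoot ζ v) {h : ZMod v → ℤ}
    (hsign : ∀ j, h j = 1 ∨ h j = -1) {u L F p w : ℕ} (hv : v = 4 * u ^ 2) (hLF : u ^ 2 = L * F)
    (hp : p.Prime) (hpu : p ∣ u) (hpodd : Odd p) (hw : p * w = 4 * F) (c : ZMod v)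
    (hgood : ∀ k : ZMod v, Good u k → Tc ζ (Vale.Agent.Lib.P033.hp h) L c k * Tc ζ (Vale.Agent.Lib.P033.hp h) L c (-k) = (u : R) ^ 2) :
    p ^ 2 * (u * u.totient) ≤ (p ^ 2 - 1) * F := by
  classical
  have hv0 : v ≠ 0 := NeZero.ne v
  have h1 := hζ.pow_eq_one
  have hvLN : v = L * (4 * F) := by rw [hv, hLF]; ring
  have hL : L ∣ v := Dvd.intro _ hvLN.symm
  have hL0 : 0 < L := by
    rcases Nat.eq_zero_or_pos L with h0 | h0
    · subst h0; simp at hvLN; exact absurd hvLN hv0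
    · exact h0
  have hdiv : v / L = 4 * F := by rw [hvLN]; exact Nat.mul_div_cancel_left _ hL0
  set y : ℕ := L * w with hydef
  have hpy : p * y = v := by rw [hydef, hvLN, ← hw]; ring
  have hycast : (y : ZMod v) = (L : ZMod v) * (w : ZMod v) := by rw [hydef]; push_cast; ring
  set Q : ZMod v → ℝ := fun k => ‖f (Tc ζ h L c k)‖ ^ 2 with hQ
  have hQ0 : ∀ k, 0 ≤ Q k := fun k => by positivity
  -- Parseval for `h`
  have hP1 : ∑ k, Q k = (v : ℝ) * (4 * (F : ℝ)) := by
    rw [hQ, real_parseval f hζ h hL c, hdiv]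
    congr 1
    have : ∀ m ∈ range (4 * F), ((h (c + (L : ZMod v) * (m : ZMod v)) : ℤ) : ℝ) ^ 2 = 1 := by
      intro m _
      rcases hsign (c + (L : ZMod v) * (m : ZMod v)) with h2 | h2 <;> rw [h2] <;> norm_num
    rw [sum_congr rfl this]
    simp
  -- Parseval for the coset sums
  have hP2 : (v : ℝ) * (4 * (F : ℝ)) ≤ ∑ k, ‖f (Tc ζ (gsum h p (y : ZMod v)) L c k)‖ ^ 2 := by
    rw [real_parseval f hζ _ hL c, hdiv]
    refine mul_le_mul_of_nonneg_left ?_ (Nat.cast_nonneg v)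
    have h2 : ∑ m ∈ range (4 * F), (1 : ℝ)
        ≤ ∑ m ∈ range (4 * F), ((gsum h p (y : ZMod v) (c + (L : ZMod v) * (m : ZMod v)) : ℤ) : ℝ) ^ 2 :=
      sum_le_sum fun m _ => gsum_sq_ge hsign hpodd _ _
    have h3 : ∑ m ∈ range (4 * F), (1 : ℝ) = 4 * (F : ℝ) := by simp
    rw [h3] at h2
    exact h2
  -- the transform of the coset sum
  set A := univ.filter (fun k : ZMod v => k * (y : ZMod v) = 0) with hA
  have hP3 : ∀ k, ‖f (Tc ζ (gsum h p (y : ZMod v)) L c k)‖ ^ 2
      = (if k * (y : ZMod v) = 0 then (p : ℝ) ^ 2 else 0) * Q k := by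
    intro k
    rw [hycast, Tc_gsum h1 h p hL w c k, ← hycast, geom_ee hζ hpy k, map_mul, norm_mul, mul_pow]
    rw [hQ]
    congr 1
    split_ifs with h0
    · simp
    · simp
  have hP4 : (v : ℝ) * (4 * (F : ℝ)) ≤ (p : ℝ) ^ 2 * ∑ k ∈ A, Q k := by
    refine hP2.trans (le_of_eq ?_)
    simp_rw [hP3]
    rw [mul_sum, hA, sum_filter]
    refine sum_congr rfl fun k _ => ?_
    split_ifs with h0
    · rfl
    · simp
  -- good frequencies
  set B := univ.filter (fun k : ZMod v => Good u k) with hB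
  have hQgood : ∀ k ∈ B, Q k = (v : ℝ) := by
    intro k hk
    have hk' : Good u k := (mem_filter.1 hk).2
    have hk0 : k * (y : ZMod v) ≠ 0 := hk'.mul_ne_zero hp hpu hpy
    have hz : ∀ k' : ZMod v, k' * (y : ZMod v) ≠ 0 → Tc ζ (fun _ => 1) L c k' = 0 := by
      intro k' hk'0
      refine Tc_const_eq_zero hζ hL c k' w ?_
      rwa [← hycast]
    have hT : Tc ζ h L c k = 2 * Tc ζ (Vale.Agent.Lib.P033.hp h) L c k := by
      rw [Tc_h_eq hsign, hz k hk0, sub_zero]
    have hn : ‖f (Tc ζ (Vale.Agent.Lib.P033.hp h) L c k)‖ = u := norm_map_Tc_of_mul h1 (hgood k hk')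
    rw [hQ]
    simp only
    rw [hT, map_mul, norm_mul, hn, map_ofNat]
    have hvr : (v : ℝ) = 4 * (u : ℝ) ^ 2 := by rw [hv]; push_cast; ring
    rw [hvr]
    simp
    ring
  have hSB : ∑ k ∈ B, Q k = ((4 * u * u.totient : ℕ) : ℝ) * (v : ℝ) := by
    rw [sum_congr rfl hQgood, sum_const, nsmul_eq_mul, hB, card_good hv]
  have hdisj : Disjoint A B := by
    rw [Finset.disjoint_left]
    intro k hkA hkB
    have h2 : k * (y : ZMod v) = 0 := (mem_filter.1 hkA).2
    have h3 : Good u k := (mem_filter.1 hkB).2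
    exact h3.mul_ne_zero hp hpu hpy h2
  have hsum : ∑ k ∈ A, Q k + ∑ k ∈ B, Q k ≤ ∑ k, Q k := by
    rw [← sum_union hdisj]
    exact sum_le_sum_of_subset_of_nonneg (subset_univ _) (fun k _ _ => hQ0 k)
  -- conclude
  have hvpos : (0 : ℝ) < v := Nat.cast_pos.2 (Nat.pos_of_ne_zero hv0)
  have hp2 : (0 : ℝ) < (p : ℝ) ^ 2 := by
    have : (0 : ℝ) < p := Nat.cast_pos.2 hp.pos
    positivity
  have hfinal : (p : ℝ) ^ 2 * (4 * ((u * u.totient : ℕ) : ℝ)) ≤ ((p : ℝ) ^ 2 - 1) * (4 * (F : ℝ)) := by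
    have h5 : ∑ k ∈ A, Q k ≤ (v : ℝ) * (4 * (F : ℝ)) - ((4 * u * u.totient : ℕ) : ℝ) * (v : ℝ) := by
      rw [hSB, hP1] at hsum
      linarith
    have h6 : (v : ℝ) * (4 * (F : ℝ)) ≤ (p : ℝ) ^ 2 * ((v : ℝ) * (4 * (F : ℝ)) - ((4 * u * u.totient : ℕ) : ℝ) * (v : ℝ)) :=
      hP4.trans (mul_le_mul_of_nonneg_left h5 hp2.le)
    have h7 : (v : ℝ) * (((p : ℝ) ^ 2 * (4 * ((u * u.totient : ℕ) : ℝ))))
        ≤ (v : ℝ) * (((p : ℝ) ^ 2 - 1) * (4 * (F : ℝ))) := by
      push_cast at h6 ⊢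
      nlinarith
    exact le_of_mul_le_mul_left h7 hvpos
  have hp1 : 1 ≤ p ^ 2 := Nat.one_le_pow _ _ hp.pos
  have hcast : ((p ^ 2 * (u * u.totient) : ℕ) : ℝ) ≤ (((p ^ 2 - 1) * F : ℕ) : ℝ) := by
    rw [Nat.cast_mul, Nat.cast_mul (p ^ 2 - 1), Nat.cast_sub hp1]
    push_cast at hfinal ⊢
    nlinarith
  exact_mod_cast hcast

end Energy

end Vale.Agent.Lib.P033
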