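import Mathlib
import Vale.Agent.Lib.P033.Final

/-!
The main inequality for a sequence indexed by natural numbers.
-/

namespace Vale.Agent.Lib.P033

open Finset NumberField

set_option linter.unusedSectionVars false
set_option linter.unusedVariables false

/-- Reindexing a sum over `ZMod v` by values. -/
lemma sum_zmod_val {v : ℕ} [NeZero v] {M : Type*} [AddCommMonoid M] (g : ℕ → M) :
    ∑ x : ZMod v, g x.val = ∑ n ∈ range v, g n := by
  refine sum_nbij' (fun x => x.val) (fun n => (n : ZMod v)) ?_ ?_ ?_ ?_ ?_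
  · intro x _; exact mem_range.2 (ZMod.val_lt x)
  · intro n _; exact mem_univ _
  · intro x _; exact ZMod.natCast_zmod_val x
  · intro n hn; exact ZMod.val_natCast_of_lt (mem_range.1 hn)
  · intro x _; rfl

/-- The inequality for a function on `ZMod v`. -/
theorem main_zmod {v : ℕ} [NeZero v] {u : ℕ} (hv : v = 4 * u ^ 2) (hu : Odd u)
    {h : ZMod v → ℤ} (hsign : ∀ j, h j = 1 ∨ h j = -1)
    (hauto : ∀ t : ZMod v, t ≠ 0 → ∑ j, h j * h (j + t) = 0)
    {F : ℕ} (hF : F ∣ u ^ 2) (hrad : ∀ r : ℕ, r.Prime → r ∣ u → r ∣ F)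
    (hdesc : ∀ t : ℕ, t.Coprime u → t ≡ 1 [MOD F] → ∀ q : ℕ, q.Prime → q ∣ u →
      ∃ e : ℕ, q ^ e ≡ t [MOD u ^ 2 / q ^ (u ^ 2).factorization q])
    {p : ℕ} (hp' : p.Prime) (hpu : p ∣ u) :
    p ^ 2 * (u * u.totient) ≤ (p ^ 2 - 1) * F := by
  classical
  have hC : @IsCyclotomicExtension {v} ℚ (CyclotomicField v ℚ) _ _ DivisionRing.toRatAlgebra := by
    have h1 : @IsCyclotomicExtension {v} ℚ (CyclotomicField v ℚ) _ _
        (CyclotomicField.algebra v ℚ) := inferInstance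
    have h2 : (DivisionRing.toRatAlgebra : Algebra ℚ (CyclotomicField v ℚ))
        = CyclotomicField.algebra v ℚ := Subsingleton.elim _ _
    rwa [h2]
  have hζ : IsPrimitiveRoot (IsCyclotomicExtension.zeta v ℚ (CyclotomicField v ℚ)) v :=
    IsCyclotomicExtension.zeta_spec v ℚ (CyclotomicField v ℚ)
  have hu1 : u ≠ 1 := by
    rintro rfl
    exact hp'.one_lt.ne' (Nat.dvd_one.1 hpu)
  have hLF : u ^ 2 / F * F = u ^ 2 := Nat.div_mul_cancel hF
  obtain ⟨c, hc⟩ := conc_all hζ hsign hauto hv hu hu1 hF hrad hdesc (u ^ 2 / F) (dvd_refl _)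
  let φ : CyclotomicField v ℚ →+* ℂ := (IsAlgClosed.lift (R := ℚ)).toRingHom
  let f : 𝓞 (CyclotomicField v ℚ) →+* ℂ :=
    φ.comp (algebraMap (𝓞 (CyclotomicField v ℚ)) (CyclotomicField v ℚ))
  have hζO : IsPrimitiveRoot hζ.toInteger v := hζ.toInteger_isPrimitiveRoot
  have hpF : p ∣ F := hrad p hp' hpu
  obtain ⟨w', hw'⟩ := hpF
  exact energy_bound f hζO hsign (L := u ^ 2 / F) (w := 4 * w') hv hLF.symm hp' hpu
    (hu.of_dvd_nat hpu) (by rw [hw']; ring) c hc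

/-- The main inequality, for a sequence given by natural-number indices. -/
theorem main_nat (u : ℕ) (hu : Odd u) (h : ℕ → ℤ)
    (hsign : ∀ j, j < 4 * u ^ 2 → h j = 1 ∨ h j = -1)
    (hauto : ∀ t, 1 ≤ t → t < 4 * u ^ 2 →
      ∑ j ∈ range (4 * u ^ 2), h j * h ((j + t) % (4 * u ^ 2)) = 0)
    (F : ℕ) (hF : F ∣ u ^ 2) (hrad : ∀ r : ℕ, r.Prime → r ∣ u → r ∣ F)
    (hdesc : ∀ t : ℕ, t.Coprime u → t ≡ 1 [MOD F] → ∀ q : ℕ, q.Prime → q ∣ u →
      ∃ e : ℕ, q ^ e ≡ t [MOD u ^ 2 / q ^ (u ^ 2).factorization q])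
    (p : ℕ) (hp' : p.Prime) (hpu : p ∣ u) :
    p ^ 2 * (u * u.totient) ≤ (p ^ 2 - 1) * F := by
  have hu0 : u ≠ 0 := by
    rintro rfl
    exact (Nat.not_even_iff_odd.2 hu) (by simp)
  have hv0 : 4 * u ^ 2 ≠ 0 := by positivity
  have : NeZero (4 * u ^ 2) := ⟨hv0⟩
  refine main_zmod (v := 4 * u ^ 2) (h := fun x => h x.val) rfl hu ?_ ?_ hF hrad hdesc hp' hpu
  · intro j
    exact hsign _ (ZMod.val_lt j)
  · intro t ht
    have ht0 : t.val ≠ 0 := fun h0 => ht ((ZMod.val_eq_zero t).1 h0)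
    have h1 := hauto t.val (Nat.pos_of_ne_zero ht0) (ZMod.val_lt t)
    rw [← sum_zmod_val] at h1
    rw [← h1]
    refine sum_congr rfl fun j _ => ?_
    simp only [ZMod.val_add]

end Vale.Agent.Lib.P033
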