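import Mathlib
import Vale.Agent.Lib.P033.Assemble

/-!
Corollaries with explicit power residue conditions.
-/

namespace Vale.Agent.Lib.P033

open Finset

set_option linter.unusedSectionVars false
set_option linter.unusedVariables false

/-- Binomial expansion modulo the square of the increment. -/
lemma one_add_pow_sq (A i : ℕ) : ∃ C, (1 + A) ^ i = 1 + i * A + A ^ 2 * C := by
  induction i with
  | zero => exact ⟨0, by simp⟩
  | succ i ih =>
    obtain ⟨C, hC⟩ := ih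
    refine ⟨i + C + A * C, ?_⟩
    rw [pow_succ, hC]
    ring

/-- If `x ≡ 1 mod p` and `x ≢ 1 mod p ^ n` then the powers of `x` reach every residue modulo
`p ^ n` which is `1` modulo `p ^ (n - 1)`. -/
lemma exists_pow_modEq {p n x t : ℕ} (hp : p.Prime) (hodd : Odd p) (hn : 2 ≤ n)
    (hx1 : x ≡ 1 [MOD p]) (hxn : ¬ x ≡ 1 [MOD p ^ n]) (ht : t ≡ 1 [MOD p ^ (n - 1)]) :
    ∃ i, x ^ i ≡ t [MOD p ^ n] := by
  have : Fact p.Prime := ⟨hp⟩
  have hp2 := hp.two_le
  -- `x` is larger than one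
  have hx0 : x ≠ 0 := by
    rintro rfl
    have h1 : p ∣ 1 := by
      have := (Nat.modEq_iff_dvd' (by omega : 0 ≤ 1)).1 hx1
      simpa using this
    exact hp.one_lt.ne' (Nat.dvd_one.1 h1)
  have hx1' : x ≠ 1 := by
    rintro rfl
    exact hxn rfl
  have hxgt : 1 < x := by omega
  have hdvd1 : p ∣ x - 1 := (Nat.modEq_iff_dvd' (by omega)).1 hx1.symm
  have hxnd : ¬ p ∣ x := by
    intro h
    have h2 : p ∣ x - (x - 1) := Nat.dvd_sub h hdvd1
    have h3 : x - (x - 1) = 1 := by omega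
    rw [h3] at h2
    exact hp.one_lt.ne' (Nat.dvd_one.1 h2)
  set s := padicValNat p (x - 1) with hs
  have hx1ne : x - 1 ≠ 0 := by omega
  have hs1 : 1 ≤ s := one_le_padicValNat_of_dvd hx1ne hdvd1
  have hsn : s < n := by
    by_contra hcon
    have h3 : n ≤ s := by omega
    have h4 : p ^ n ∣ x - 1 := (padicValNat_dvd_iff_le hx1ne).2 h3
    exact hxn ((Nat.modEq_iff_dvd' (by omega)).2 h4).symm
  -- the power with exact valuation `n - 1`
  set d := n - 1 - s with hd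
  set y := x ^ p ^ d with hy
  have hypos : p ^ d ≠ 0 := pow_ne_zero _ hp.ne_zero
  have hyval : padicValNat p (y - 1) = n - 1 := by
    have h2 := padicValNat.pow_sub_pow (p := p) (x := x) (y := 1) hodd hxgt hdvd1 hxnd hypos
    rw [one_pow, ← hy, padicValNat.prime_pow] at h2
    rw [h2, ← hs]
    omega
  have hygt : 1 < y := Nat.one_lt_pow hypos hxgt
  have hy1ne : y - 1 ≠ 0 := by omega
  have hdvdy : p ^ (n - 1) ∣ y - 1 := (padicValNat_dvd_iff_le hy1ne).2 hyval.ge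
  obtain ⟨m, hm⟩ := hdvdy
  have hmnd : ¬ p ∣ m := by
    intro h
    have h2 : p ^ (n - 1 + 1) ∣ y - 1 := by
      rw [hm, pow_succ]
      exact Nat.mul_dvd_mul_left _ h
    have h3 := (padicValNat_dvd_iff_le hy1ne).1 h2
    omega
  have hcop : Nat.Coprime m p := ((Nat.Prime.coprime_iff_not_dvd hp).2 hmnd).symm
  -- find the exponent
  obtain ⟨m', hm'⟩ := Nat.exists_mul_mod_eq_one_of_coprime hcop hp.one_lt
  have ht1 : 1 ≤ t := by
    by_contra hcon
    have h0 : t = 0 := by omega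
    subst h0
    have h1 : p ^ (n - 1) ∣ 1 := by
      have := (Nat.modEq_iff_dvd' (by omega : 0 ≤ 1)).1 ht
      simpa using this
    have h2 : p ∣ 1 := dvd_trans (dvd_pow_self p (by omega)) h1
    exact hp.one_lt.ne' (Nat.dvd_one.1 h2)
  obtain ⟨r, hr⟩ : p ^ (n - 1) ∣ t - 1 := (Nat.modEq_iff_dvd' ht1).1 ht.symm
  refine ⟨p ^ d * (r * m'), ?_⟩
  rw [pow_mul, ← hy]
  -- expansion
  set i := r * m' with hi
  have hyA : y = 1 + p ^ (n - 1) * m := by omega
  obtain ⟨C, hC⟩ := one_add_pow_sq (p ^ (n - 1) * m) i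
  rw [← hyA] at hC
  rw [hC]
  have htr : t = 1 + p ^ (n - 1) * r := by omega
  rw [htr]
  have hA2 : p ^ n ∣ (p ^ (n - 1) * m) ^ 2 * C := by
    have h2 : p ^ n ∣ (p ^ (n - 1)) ^ 2 := by
      rw [← pow_mul]
      exact pow_dvd_pow p (by omega)
    rw [mul_pow]
    exact Dvd.dvd.mul_right (Dvd.dvd.mul_right h2 _) _
  have hA3 : 1 + i * (p ^ (n - 1) * m) + (p ^ (n - 1) * m) ^ 2 * C ≡ 1 + i * (p ^ (n - 1) * m) [MOD p ^ n] := by
    have := Nat.modEq_zero_iff_dvd.2 hA2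
    simpa using Nat.ModEq.add_left (1 + i * (p ^ (n - 1) * m)) this
  refine hA3.trans ?_
  have him : i * m ≡ r [MOD p] := by
    have h3 : m * m' ≡ 1 [MOD p] := by
      have h4 : (m * m') % p = 1 % p := by
        rw [hm'.2, Nat.mod_eq_of_lt hp.one_lt]
      exact h4
    have h5 : r * (m * m') ≡ r * 1 [MOD p] := h3.mul_left r
    rw [mul_one] at h5
    have h6 : i * m = r * (m * m') := by rw [hi]; ring
    rw [h6]
    exact h5
  have hkey : p ^ (n - 1) * (i * m) ≡ p ^ (n - 1) * r [MOD p ^ n] := by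
    have h3 := Nat.ModEq.mul_left' (p ^ (n - 1)) him
    have h4 : p ^ (n - 1) * p = p ^ n := by
      rw [← pow_succ]
      congr 1
      omega
    rwa [h4] at h3
  have h7 : i * (p ^ (n - 1) * m) = p ^ (n - 1) * (i * m) := by ring
  rw [h7]
  exact hkey.add_left 1

/-- Explicit form of the factorization of `u ^ 2` for `u = p ^ a * w` at a prime of `w`. -/
lemma mod_of_prime_dvd_w {p a w q : ℕ} (hp : p.Prime) (hq : q.Prime) (hqp : q ≠ p) (hw0 : w ≠ 0)
    (ha : 1 ≤ a) :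
    (p ^ a * w) ^ 2 / q ^ ((p ^ a * w) ^ 2).factorization q
      = p ^ (2 * a) * (w / q ^ w.factorization q) ^ 2 := by
  have hpa : p ^ a ≠ 0 := pow_ne_zero _ hp.ne_zero
  have hfac : ((p ^ a * w) ^ 2).factorization q = 2 * w.factorization q := by
    rw [Nat.factorization_pow, Nat.factorization_mul hpa hw0, Nat.factorization_pow,
      hp.factorization]
    simp [hqp.symm]
  rw [hfac]
  obtain ⟨w', hw'⟩ : q ^ w.factorization q ∣ w := Nat.ordProj_dvd w q
  have hq0 : 0 < q ^ w.factorization q := pow_pos hq.pos _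
  have hdiv : w / q ^ w.factorization q = w' := Nat.div_eq_of_eq_mul_right hq0 hw'
  rw [hdiv]
  have hq1 : q ^ (2 * w.factorization q) = (q ^ w.factorization q) ^ 2 := by
    rw [← pow_mul, mul_comm]
  rw [hq1]
  refine Nat.div_eq_of_eq_mul_right (by positivity) ?_
  conv_lhs => rw [hw']
  rw [show 2 * a = a * 2 by ring, pow_mul]
  ring

/-- Explicit form of the factorization of `u ^ 2` for `u = p ^ a * w` at the prime `p`. -/
lemma mod_of_prime_self {p a w : ℕ} (hp : p.Prime) (hw : p.Coprime w) (hw0 : w ≠ 0) :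
    (p ^ a * w) ^ 2 / p ^ ((p ^ a * w) ^ 2).factorization p = w ^ 2 := by
  have hpa : p ^ a ≠ 0 := pow_ne_zero _ hp.ne_zero
  have hfac : ((p ^ a * w) ^ 2).factorization p = 2 * a := by
    rw [Nat.factorization_pow, Nat.factorization_mul hpa hw0, Nat.factorization_pow,
      hp.factorization]
    have : w.factorization p = 0 :=
      Nat.factorization_eq_zero_of_not_dvd ((Nat.Prime.coprime_iff_not_dvd hp).1 hw)
    simp [this]
  rw [hfac]
  refine Nat.div_eq_of_eq_mul_right (pow_pos hp.pos _) ?_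
  rw [show 2 * a = a * 2 by ring, pow_mul]
  ring

/-- One prime of `u` is not linked to the others: then `p ^ 2 * φ(w) ≤ (p + 1) * w`. -/
theorem unlinked_bound (p a w : ℕ) (hp : p.Prime) (ha : 1 ≤ a) (hpw : p.Coprime w)
    (hu : Odd (p ^ a * w)) (h : ℕ → ℤ)
    (hsign : ∀ j, j < 4 * (p ^ a * w) ^ 2 → h j = 1 ∨ h j = -1)
    (hauto : ∀ t, 1 ≤ t → t < 4 * (p ^ a * w) ^ 2 →
      ∑ j ∈ range (4 * (p ^ a * w) ^ 2), h j * h ((j + t) % (4 * (p ^ a * w) ^ 2)) = 0)
    (hnl : ∀ q : ℕ, q.Prime → q ∣ w →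
      ∃ E : ℕ, q ^ E ≡ 1 [MOD (w / q ^ w.factorization q) ^ 2] ∧
        ¬ q ^ ((p - 1) * E) ≡ 1 [MOD p ^ (2 * a)]) :
    p ^ 2 * w.totient ≤ (p + 1) * w := by
  have hw0 : w ≠ 0 := by
    rintro rfl
    simp at hu
  have hpodd : Odd p := hu.of_dvd_nat (Dvd.dvd.mul_right (dvd_pow_self p (by omega)) w)
  have hpa : p ^ a ≠ 0 := pow_ne_zero _ hp.ne_zero
  set u := p ^ a * w with hu_def
  have hpu : p ∣ u := Dvd.dvd.mul_right (dvd_pow_self p (by omega)) w
  have h2a : 2 * a - 1 + 1 = 2 * a := by omega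
  set P := p ^ (2 * a - 1) with hP
  set F := P * w ^ 2 with hF_def
  have hu2 : u ^ 2 = p * F := by
    rw [hu_def, hF_def, hP, mul_pow]
    have : (p ^ a) ^ 2 = p * p ^ (2 * a - 1) := by
      rw [← pow_mul, ← pow_succ', h2a]
      ring_nf
    rw [this]
    ring
  have hFdvd : F ∣ u ^ 2 := Dvd.intro_left p hu2.symm
  have hpF : p ∣ P := dvd_pow_self p (by omega)
  have hrad : ∀ r : ℕ, r.Prime → r ∣ u → r ∣ F := by
    intro r hr hru
    rcases (Nat.Prime.dvd_mul hr).1 hru with h1 | h1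
    · have h2 := hr.dvd_of_dvd_pow h1
      have h3 : r = p := (Nat.prime_dvd_prime_iff_eq hr hp).1 h2
      rw [h3]
      exact Dvd.dvd.mul_right hpF _
    · exact Dvd.dvd.mul_left (Dvd.dvd.trans h1 (Dvd.intro_left w (by ring))) P
  have hdesc : ∀ t : ℕ, t.Coprime u → t ≡ 1 [MOD F] → ∀ q : ℕ, q.Prime → q ∣ u →
      ∃ e : ℕ, q ^ e ≡ t [MOD u ^ 2 / q ^ (u ^ 2).factorization q] := by
    intro t _ htF q hq hqu
    by_cases hqp : q = p
    · subst hqp
      refine ⟨0, ?_⟩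
      rw [hu_def, mod_of_prime_self hp hpw hw0]
      have h1 : t ≡ 1 [MOD w ^ 2] := htF.of_dvd (Dvd.intro_left P rfl)
      simpa using h1.symm
    · have hqw : q ∣ w := by
        rcases (Nat.Prime.dvd_mul hq).1 hqu with h1 | h1
        · exact absurd ((Nat.prime_dvd_prime_iff_eq hq hp).1 (hq.dvd_of_dvd_pow h1)) hqp
        · exact h1
      rw [hu_def, mod_of_prime_dvd_w hp hq hqp hw0 ha]
      obtain ⟨E, hE1, hE2⟩ := hnl q hq hqw
      set R := (w / q ^ w.factorization q) ^ 2 with hR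
      have hRF : R ∣ F := by
        have h1 : w / q ^ w.factorization q ∣ w := Nat.div_dvd_of_dvd (Nat.ordProj_dvd w q)
        exact Dvd.dvd.mul_left (pow_dvd_pow_of_dvd h1 2) P
      have htR : t ≡ 1 [MOD R] := htF.of_dvd hRF
      have htP : t ≡ 1 [MOD p ^ (2 * a - 1)] := htF.of_dvd (Dvd.intro _ rfl)
      set x := q ^ ((p - 1) * E) with hx
      have hqp' : Nat.Coprime q p := (Nat.coprime_primes hq hp).2 hqp
      have hx1 : x ≡ 1 [MOD p] := by
        have h1 : q ^ (p - 1) ≡ 1 [MOD p] := by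
          have : Fact p.Prime := ⟨hp⟩
          have h2 : (q : ZMod p) ≠ 0 := by
            rw [Ne, ZMod.natCast_eq_zero_iff]
            exact (Nat.Prime.coprime_iff_not_dvd hp).1 hqp'.symm
          have h3 := ZMod.pow_card_sub_one_eq_one h2
          have h4 : ((q ^ (p - 1) : ℕ) : ZMod p) = ((1 : ℕ) : ZMod p) := by
            push_cast; exact h3
          exact (ZMod.natCast_eq_natCast_iff _ _ _).1 h4
        rw [hx, pow_mul]
        simpa using h1.pow E
      obtain ⟨i, hi⟩ := exists_pow_modEq hp hpodd (by omega : 2 ≤ 2 * a) hx1 hE2 htP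
      refine ⟨(p - 1) * E * i, ?_⟩
      have hcopPR : Nat.Coprime (p ^ (2 * a)) R := by
        refine Nat.Coprime.pow_left _ (Nat.Coprime.pow_right _ ?_)
        exact Nat.Coprime.coprime_dvd_right (Nat.div_dvd_of_dvd (Nat.ordProj_dvd w q)) hpw
      refine (Nat.modEq_and_modEq_iff_modEq_mul hcopPR).1 ⟨?_, ?_⟩
      · have h1 : q ^ ((p - 1) * E * i) = x ^ i := by rw [hx, pow_mul]
        rw [h1]
        exact hi
      · have h1 : q ^ ((p - 1) * E * i) ≡ 1 [MOD R] := by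
          have h2 : (p - 1) * E * i = E * ((p - 1) * i) := by ring
          rw [h2, pow_mul]
          simpa using hE1.pow ((p - 1) * i)
        exact h1.trans htR.symm
  have hmain := main_nat u hu h hsign hauto F hFdvd hrad hdesc p hp hpu
  -- compute
  have hcop : Nat.Coprime (p ^ a) w := Nat.Coprime.pow_left _ hpw
  have hphi : u.totient = p ^ (a - 1) * (p - 1) * w.totient := by
    rw [hu_def, Nat.totient_mul hcop, Nat.totient_prime_pow hp (by omega)]
  have hPeq : p ^ a * p ^ (a - 1) = P := by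
    rw [hP, ← pow_add]
    congr 1
    omega
  have hle : 1 ≤ p - 1 := by have := hp.two_le; omega
  have hp21 : p ^ 2 - 1 = (p - 1) * (p + 1) := by
    obtain ⟨b, hb⟩ : ∃ b, p = b + 1 := ⟨p - 1, by have := hp.two_le; omega⟩
    subst hb
    simp only [Nat.add_sub_cancel]
    have : (b + 1) ^ 2 = b * (b + 1 + 1) + 1 := by ring
    omega
  rw [hphi, hp21, hu_def] at hmain
  have hlhs : p ^ 2 * (p ^ a * w * (p ^ (a - 1) * (p - 1) * w.totient))
      = (P * (p - 1) * w) * (p ^ 2 * w.totient) := by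
    rw [← hPeq]; ring
  have hrhs : (p - 1) * (p + 1) * F = (P * (p - 1) * w) * ((p + 1) * w) := by
    rw [hF_def]; ring
  rw [hlhs, hrhs] at hmain
  have hpos : 0 < P * (p - 1) * w := by
    have hPpos : 0 < P := pow_pos hp.pos _
    have hwpos : 0 < w := Nat.pos_of_ne_zero hw0
    positivity
  exact Nat.le_of_mul_le_mul_left hmain hpos

/-- The condition at one of the two primes. -/
theorem two_prime_left (p q a b : ℕ) (hp : p.Prime) (hq : q.Prime) (hpq : p ≠ q) (ha : 1 ≤ a)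
    (hb : 1 ≤ b) (hu : Odd (p ^ a * q ^ b)) (h : ℕ → ℤ)
    (hsign : ∀ j, j < 4 * (p ^ a * q ^ b) ^ 2 → h j = 1 ∨ h j = -1)
    (hauto : ∀ t, 1 ≤ t → t < 4 * (p ^ a * q ^ b) ^ 2 →
      ∑ j ∈ range (4 * (p ^ a * q ^ b) ^ 2),
        h j * h ((j + t) % (4 * (p ^ a * q ^ b) ^ 2)) = 0) :
    q ^ (p - 1) ≡ 1 [MOD p ^ (2 * a)] := by
  by_contra hcon
  have hpw : p.Coprime (q ^ b) := Nat.Coprime.pow_right _ ((Nat.coprime_primes hp hq).2 hpq)
  have hpodd : Odd p := hu.of_dvd_nat (Dvd.dvd.mul_right (dvd_pow_self p (by omega)) _)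
  have hqodd : Odd q := hu.of_dvd_nat (Dvd.dvd.mul_left (dvd_pow_self q (by omega)) _)
  have hnl : ∀ r : ℕ, r.Prime → r ∣ q ^ b →
      ∃ E : ℕ, r ^ E ≡ 1 [MOD (q ^ b / r ^ (q ^ b).factorization r) ^ 2] ∧
        ¬ r ^ ((p - 1) * E) ≡ 1 [MOD p ^ (2 * a)] := by
    intro r hr hrq
    have hrq' : r = q := (Nat.prime_dvd_prime_iff_eq hr hq).1 (hr.dvd_of_dvd_pow hrq)
    subst hrq'
    refine ⟨1, ?_, ?_⟩
    · have h1 : (r ^ b).factorization r = b := by
        rw [Nat.factorization_pow, hr.factorization]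
        simp
      rw [h1, Nat.div_self (pow_pos hr.pos _)]
      simpa using Nat.modEq_one
    · rwa [mul_one]
  have hmain := unlinked_bound p a (q ^ b) hp ha hpw hu h hsign hauto hnl
  rw [Nat.totient_prime_pow hq (by omega)] at hmain
  have hq1 : q ^ b = q ^ (b - 1) * q := by
    rw [← pow_succ]
    congr 1
    omega
  have h1 : q ^ (b - 1) * (p ^ 2 * (q - 1)) ≤ q ^ (b - 1) * ((p + 1) * q) := by
    calc q ^ (b - 1) * (p ^ 2 * (q - 1)) = p ^ 2 * (q ^ (b - 1) * (q - 1)) := by ring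
      _ ≤ (p + 1) * q ^ b := hmain
      _ = q ^ (b - 1) * ((p + 1) * q) := by rw [hq1]; ring
  have h2 := Nat.le_of_mul_le_mul_left h1 (pow_pos hq.pos _)
  have hp3 : 3 ≤ p := by
    have := hp.two_le
    obtain ⟨c, hc⟩ := hpodd
    omega
  have hq3 : 3 ≤ q := by
    have := hq.two_le
    obtain ⟨c, hc⟩ := hqodd
    omega
  obtain ⟨q', hq'⟩ : ∃ q', q = q' + 1 := ⟨q - 1, by omega⟩
  subst hq'
  simp only [Nat.add_sub_cancel] at h2
  nlinarith [Nat.mul_le_mul hp3 hp3, Nat.mul_le_mul hp3 (show 2 ≤ q' by omega)]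

/-- Two primes: both congruences hold. -/
theorem two_prime (p q a b : ℕ) (hp : p.Prime) (hq : q.Prime) (hpq : p ≠ q) (ha : 1 ≤ a)
    (hb : 1 ≤ b) (hu : Odd (p ^ a * q ^ b)) (h : ℕ → ℤ)
    (hsign : ∀ j, j < 4 * (p ^ a * q ^ b) ^ 2 → h j = 1 ∨ h j = -1)
    (hauto : ∀ t, 1 ≤ t → t < 4 * (p ^ a * q ^ b) ^ 2 →
      ∑ j ∈ range (4 * (p ^ a * q ^ b) ^ 2),
        h j * h ((j + t) % (4 * (p ^ a * q ^ b) ^ 2)) = 0) :
    q ^ (p - 1) ≡ 1 [MOD p ^ (2 * a)] ∧ p ^ (q - 1) ≡ 1 [MOD q ^ (2 * b)] := by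
  refine ⟨two_prime_left p q a b hp hq hpq ha hb hu h hsign hauto, ?_⟩
  have hc : p ^ a * q ^ b = q ^ b * p ^ a := mul_comm _ _
  rw [hc] at hu hsign hauto
  exact two_prime_left q p b a hq hp hpq.symm hb ha hu h hsign hauto

end Vale.Agent.Lib.P033
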